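import Vale.Agent.P167.H327.Geo6
import Vale.Agent.P153.R2.TOP.Sep

/-!
# P167, [GEO-BAD] (b): local connectivity of the lattice domains

* `CoCtrl D η ε`: the frontier of `D`, outside of the ball of radius `ε` around any point `p`, lies in a
  connected compact part of the frontier which does not meet the ball of radius `η` around `p`.
* `JCurve.coctrl`: uniform for domains whose boundary curves are close to a fixed Jordan curve.
* `lc_of_coctrl`: then points of `D` at distance `< η` are joined in `D` close to them (Janiszewski).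
* `lc_Om`: **for an approximation `Approx Φ δn N k P T` and `h₁ > 0` there is `h > 0` such that
  eventually any two points of `Om (δn n) (T n)` at distance `< h` are joined in
  `Om (δn n) (T n) ∩ ball x h₁`**.
-/

set_option autoImplicit false

open Set Topology Metric Filter

namespace Vale.Agent.P167.H174.CT

open P153.TOP
open Vale.Agent.P167.E6 Vale.Agent.P167.E2 Vale.Agent.P167.H327
open Vale.Agent.P153.R2.R1 (JCurve FC per_int)

/-- The frontier away from `p` is contained in a connected part of the frontier which is off `p`. -/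
def CoCtrl (D : Set ℂ) (η ε : ℝ) : Prop :=
  ∀ p : ℂ, ∃ J : Set ℂ, IsCompact J ∧ IsPreconnected J ∧ J ⊆ frontier D ∧
    Disjoint J (ball p η) ∧ frontier D \ ball p ε ⊆ J

/-- **Uniform co-control.** -/
theorem coctrl {F : ℝ → ℂ} {N : ℝ} (hF : JCurve F N) {ε : ℝ} (hε : 0 < ε) :
    ∃ η > 0, ∃ ε₁ > 0, ∀ (f : ℝ → ℂ) (σ : ℝ → ℝ) (M : ℝ) (D : Set ℂ), 0 < M → Continuous f →
      (∀ x, f (x + M) = f x) → Continuous σ → Monotone σ → (∀ x, σ (x + M) = σ x + N) →
      (∀ x, dist (f x) (F (σ x)) ≤ ε₁) → frontier D = range f → CoCtrl D η ε := by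
  obtain ⟨τ, hτ, hτF⟩ := hF.uniform (show 0 < ε / 4 by positivity)
  obtain ⟨m, hm, hmF⟩ := hF.uniform_inj hτ
  refine ⟨min (m / 4) (ε / 8), lt_min (by positivity) (by positivity),
    min (ε / 8) (m / 8), lt_min (by positivity) (by positivity), ?_⟩
  intro f σ M D hM hfc hfp hσc hσm hσp hd hD p
  have hd1 : ∀ x, dist (f x) (F (σ x)) ≤ ε / 8 := fun x => (hd x).trans (min_le_left _ _)
  have hd2 : ∀ x, dist (f x) (F (σ x)) ≤ m / 8 := fun x => (hd x).trans (min_le_right _ _)
  have hN := hF.pos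
  have hσk : ∀ (k : ℤ) (x : ℝ), σ (x + k * M) = σ x + k * N := by
    have hnat : ∀ (k : ℕ) (x : ℝ), σ (x + k * M) = σ x + k * N := by
      intro k
      induction k with
      | zero => intro x; simp
      | succ k ih =>
        intro x
        push_cast
        rw [add_mul, one_mul, ← add_assoc, hσp, ih]
        ring
    intro k x
    obtain ⟨n, rfl | rfl⟩ := k.eq_nat_or_neg
    · exact_mod_cast hnat n x
    · have := hnat n (x + (-(n : ℤ) : ℤ) * M)
      push_cast at this ⊢
      have e : x + -(n : ℝ) * M + n * M = x := by ring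
      rw [e] at this
      linarith
  -- the part of the curve with `σ` in a compact interval
  have hpart : ∀ a b : ℝ, IsCompact (f '' (σ ⁻¹' Icc a b)) ∧
      IsPreconnected (f '' (σ ⁻¹' Icc a b)) := by
    intro a b
    have hIo : (σ ⁻¹' Icc a b).OrdConnected := ordConnected_Icc.preimage_mono hσm
    have hIcl : IsClosed (σ ⁻¹' Icc a b) := isClosed_Icc.preimage hσc
    obtain ⟨k, hk⟩ := exists_nat_gt ((|a| + |b| + |σ 0|) / N)
    have hkN : |a| + |b| + |σ 0| < k * N := by rwa [div_lt_iff₀ hN] at hk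
    have hIb : σ ⁻¹' Icc a b ⊆ Icc (-(k * M)) (k * M) := by
      intro x hx
      have h1 := hσk k 0
      have h2 := hσk (-k) 0
      push_cast at h1 h2
      rw [zero_add] at h1 h2
      have ha := neg_abs_le a
      have hb := le_abs_self b
      have h0 := neg_abs_le (σ 0)
      have h0' := le_abs_self (σ 0)
      have hna := abs_nonneg a
      have hnb := abs_nonneg b
      constructor
      · by_contra hlt
        have h3 : σ x ≤ σ (-(k : ℝ) * M) := hσm (by linarith)
        have h4 := hx.1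
        rw [h2] at h3
        nlinarith
      · by_contra hlt
        have h3 : σ ((k : ℝ) * M) ≤ σ x := hσm (by linarith)
        have h4 := hx.2
        rw [h1] at h3
        linarith
    have hIc : IsCompact (σ ⁻¹' Icc a b) := isCompact_Icc.of_isClosed_subset hIcl hIb
    exact ⟨hIc.image hfc, hIo.isPreconnected.image _ hfc.continuousOn⟩
  by_cases hx0 : ∃ x₀, f x₀ ∈ ball p (min (m / 4) (ε / 8))
  · obtain ⟨x₀, hx0⟩ := hx0
    rw [mem_ball, lt_min_iff] at hx0
    refine ⟨_, (hpart (σ x₀ + τ) (σ x₀ + N - τ)).1, (hpart (σ x₀ + τ) (σ x₀ + N - τ)).2, ?_, ?_,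
      ?_⟩
    · rw [hD]
      exact image_subset_range _ _
    · rw [Set.disjoint_left]
      rintro _ ⟨x, hx, rfl⟩ hxp
      rw [mem_ball, lt_min_iff] at hxp
      have h1 : dist (F (σ x)) (F (σ x₀)) < m := by
        have h2 := dist_triangle4 (F (σ x)) (f x) (f x₀) (F (σ x₀))
        have h3 := hd2 x
        have h4 := hd2 x₀
        have h5 := dist_triangle_right (f x) (f x₀) p
        rw [dist_comm] at h3
        linarith [hx0.1, hxp.1]
      obtain ⟨j, hj⟩ := hmF _ _ h1
      rw [abs_lt] at hj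
      have hx1 : σ x₀ + τ ≤ σ x := hx.1
      have hx2 : σ x ≤ σ x₀ + N - τ := hx.2
      rcases lt_trichotomy j 0 with hj0 | hj0 | hj0
      · have : (j : ℝ) ≤ -1 := by exact_mod_cast (by omega : j ≤ -1)
        nlinarith [hj.1, hj.2]
      · rw [hj0] at hj
        push_cast at hj
        linarith [hj.1, hj.2]
      · have : (1 : ℝ) ≤ j := by exact_mod_cast (by omega : 1 ≤ j)
        nlinarith [hj.1, hj.2]
    · rintro y ⟨hy, hyp⟩
      rw [hD] at hy
      obtain ⟨x, rfl⟩ := hy
      -- a representative with `σ x` in the period which starts at `σ x₀ - τ`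
      obtain ⟨j, hj, -⟩ := existsUnique_add_zsmul_mem_Ico hN (σ x) (σ x₀ - τ)
      rw [zsmul_eq_mul, ← hσk] at hj
      refine ⟨x + j * M, ?_, per_int hfp j x⟩
      by_contra hcon
      have h1 : σ (x + j * M) < σ x₀ + τ := by
        by_contra h
        exact hcon ⟨not_lt.1 h, by linarith [hj.2]⟩
      have h2 : dist (F (σ (x + j * M))) (F (σ x₀)) ≤ ε / 4 := by
        apply hτF
        rw [abs_le]
        constructor <;> linarith [hj.1, h1]
      apply hyp
      rw [mem_ball, ← per_int hfp j x]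
      have h3 := dist_triangle4 (f (x + j * M)) (F (σ (x + j * M))) (F (σ x₀)) (f x₀)
      have h4 := hd1 (x + j * M)
      have h5 := hd1 x₀
      have h6 := dist_triangle (f (x + j * M)) (f x₀) p
      rw [dist_comm (f x₀)] at h5
      linarith [hx0.2]
  · push Not at hx0
    refine ⟨_, (hpart (σ 0) (σ 0 + N)).1, (hpart (σ 0) (σ 0 + N)).2, ?_, ?_, ?_⟩
    · rw [hD]
      exact image_subset_range _ _
    · rw [Set.disjoint_left]
      rintro _ ⟨x, hx, rfl⟩ hxp
      exact hx0 x hxp
    · rintro y ⟨hy, -⟩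
      rw [hD] at hy
      obtain ⟨x, rfl⟩ := hy
      obtain ⟨j, hj, -⟩ := existsUnique_add_zsmul_mem_Ico hN (σ x) (σ 0)
      rw [zsmul_eq_mul, ← hσk] at hj
      exact ⟨x + j * M, ⟨hj.1, hj.2.le⟩, per_int hfp j x⟩

/-- **Local connectivity** from co-control. -/
theorem lc_of_coctrl {D : Set ℂ} (hD : IsOpen D) (hc : IsPreconnected D)
    (hb : Bornology.IsBounded D) {η h₁ : ℝ} (hC : CoCtrl D η h₁) {x y : ℂ} (hx : x ∈ D)
    (hy : y ∈ D) (hxy : dist x y < η) (hxy' : dist x y < h₁) : JoinedIn (D ∩ ball x h₁) x y := by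
  obtain ⟨J, hJc, hJp, hJf, hJd, hJr⟩ := hC x
  have hfc : IsCompact (frontier D) :=
    (hb.isCompact_closure).of_isClosed_subset isClosed_frontier frontier_subset_closure
  have hBcl : IsClosed (J ∪ (ball x h₁)ᶜ) := hJc.isClosed.union isOpen_ball.isClosed_compl
  have hcap : frontier D ∩ (J ∪ (ball x h₁)ᶜ) = J := by
    ext z
    constructor
    · rintro ⟨h1, h2 | h2⟩
      · exact h2
      · exact hJr ⟨h1, h2⟩
    · intro h
      exact ⟨hJf h, Or.inl h⟩
  have j1 : JoinedIn (frontier D)ᶜ x y := by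
    refine joinedIn_of_preconnected isClosed_frontier.isOpen_compl hc ?_ hx hy
    intro z hz hzf
    rw [hD.frontier_eq] at hzf
    exact hzf.2 hz
  have j2 : JoinedIn (J ∪ (ball x h₁)ᶜ)ᶜ x y := by
    have hpos : 0 ≤ dist x y := dist_nonneg
    have hseg : ∀ z ∈ segment ℝ x y, dist z x ≤ dist x y := by
      intro z hz
      have h1 : x ∈ closedBall x (dist x y) := mem_closedBall_self hpos
      have h2 : y ∈ closedBall x (dist x y) := by
        rw [mem_closedBall, dist_comm]
      exact (convex_closedBall x (dist x y)).segment_subset h1 h2 hz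
    refine JoinedIn.of_segment_subset ?_
    rintro z hz (hzJ | hzb)
    · refine Set.disjoint_left.1 hJd hzJ ?_
      rw [mem_ball]
      exact (hseg z hz).trans_lt hxy
    · apply hzb
      rw [mem_ball]
      exact (hseg z hz).trans_lt hxy'
  obtain ⟨γ, hγ⟩ := janiszewski_closed hfc hBcl (by rw [hcap]; exact hJp) j1 j2
  refine ⟨γ, fun t => ?_⟩
  have h1 : γ t ∉ frontier D ∧ γ t ∈ ball x h₁ := by
    have := hγ t
    constructor
    · exact fun h => this (Or.inl h)
    · by_contra h
      exact this (Or.inr (Or.inr h))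
  refine ⟨?_, h1.2⟩
  -- the path starts in `D` and does not meet the frontier
  have hpre : IsPreconnected (range γ) := isPreconnected_range γ.continuous
  have hsub : range γ ⊆ D := by
    refine hpre.subset_left_of_subset_union hD (isClosed_closure (s := D)).isOpen_compl ?_ ?_
      ⟨x, ⟨0, γ.source⟩, hx⟩
    · rw [Set.disjoint_left]
      exact fun z hz hz' => hz' (subset_closure hz)
    · rintro _ ⟨s, rfl⟩
      by_cases h : γ s ∈ closure D
      · left
        by_contra hnD
        refine hγ s (Or.inl ?_)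
        rw [hD.frontier_eq]
        exact ⟨h, hnD⟩
      · exact Or.inr h
  exact hsub ⟨t, rfl⟩

/-- **Uniform local connectivity of the lattice domains.** -/
theorem lc_Om {Φ : (ℝ × ℝ) ≃ₜ (ℝ × ℝ)} {δn : ℕ → ℝ} {N k : ℕ → ℕ}
    {P : ∀ n, ZMod (N n) → ℤ × ℤ} {T : ℕ → Finset (ℤ × ℤ)} (h : Approx Φ δn N k P T) {h₁ : ℝ}
    (hh : 0 < h₁) : ∃ h₀ > 0, ∀ᶠ n in atTop, ∀ x ∈ Om (δn n) (T n), ∀ y ∈ Om (δn n) (T n),
      dist x y < h₀ → JoinedIn (Om (δn n) (T n) ∩ ball x h₁) x y := by
  obtain ⟨η, hη, ε₁, hε₁, hctrl⟩ := coctrl (Vale.Agent.P153.R2.R1.jcurve_FC Φ) hh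
  refine ⟨min η h₁, lt_min hη hh, ?_⟩
  filter_upwards [approx_close6 h hε₁] with n ⟨σ, h1, h2, h3, h4, h5, h6⟩
  obtain ⟨hδ0, hk0, hkN, hp, hS⟩ := h.1 n
  have hj := jcurve_QF hδ0 hp hS
  have hC := hctrl _ σ _ _ hj.pos hj.cont hj.per h1 h2 h3 h6 (frontier_Om hδ0 hp hS)
  intro x hx y hy hxy
  exact lc_of_coctrl (isOpen_Om hδ0 _) (H446.isConnected_Om hδ0 hp hS).isPreconnected
    (isBounded_Om hδ0 _) hC hx hy (hxy.trans_le (min_le_left _ _))
    (hxy.trans_le (min_le_right _ _))

end Vale.Agent.P167.H174.CT
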