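import Vale.Agent.P167.H174.CT.Three
import Vale.Agent.P167.H562.Q.CB3

/-!
# P167, general `q`, continuity: frozen squares near a box of a regular domain
-/

namespace Vale.Agent.P167.H174.CT

open Finset Relation Vale.Agent.P167.FK Vale.Agent.P167.FKA
open Vale.Agent.P145.FB (PStep PConn)
open Vale.Agent.P167.H166 (bxx mem_bxx mem_Bq cl)
open Vale.Agent.P167.H161 (Conn BStep)
open Vale.Agent.P167.H562.QM (OneC OneP QC)

variable {Q : ℝ} {D : Finset (ℤ × ℤ)} {η ω : Cfg} {z : ℤ × ℤ} {R R₁ : ℤ}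

theorem cor_pa' (v : ℤ × ℤ) : Cor v (FK.pa v) := by
  obtain ⟨a, b⟩ := v
  by_cases h : Even (a + b) <;> simp [FK.pa, Cor, h]

theorem cor_da' (v : ℤ × ℤ) : Cor v (FK.da v) := by
  obtain ⟨a, b⟩ := v
  by_cases h : Even (a + b) <;> simp [FK.da, Cor, h]

/-- The open squares outside. -/
theorem conn_open (hR : R₁ < R) (h : OneP (bxx z R₁) D η) (hω : ∀ v, v ∉ D → ω v = η v)
    {v w : ℤ × ℤ} (hv : nm (v - z) ≤ R₁) (hvD : v ∉ D) (hv1 : η v = true) (hw : nm (w - z) ≤ R₁)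
    (hwD : w ∉ D) (hw1 : η w = true) : Conn z R ω (FK.pa v) (FK.pa w) := by
  have h1 := h v (mem_bxx.2 hv) hvD hv1 w (mem_bxx.2 hw) hwD hw1 (FK.pa v) (FK.pa w)
    (H161.even_pa v) (H161.even_pa w) (cor_pa' v) (cor_pa' w)
  have key : ∀ u, ReflTransGen (PStep {z' | z' ∈ bxx z R₁ ∧ z' ∉ D ∧ η z' = true}) (FK.pa v) u →
      Even (u.1 + u.2) ∧ Conn z R ω (FK.pa v) u := by
    intro u hu
    induction hu with
    | refl => exact ⟨H161.even_pa v, ReflTransGen.refl⟩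
    | @tail a b _ hab ih =>
      obtain ⟨k1, k2, k3, k4, k5⟩ := hab
      have hpar : Even (b.1 + b.2) := by
        have := ih.1
        rw [Int.even_iff] at this ⊢
        omega
      refine ⟨hpar, ih.2.tail ⟨?_, Or.inl ⟨ih.1, k1, k2, ?_⟩⟩⟩
      · rw [mem_bxx] at k3
        exact QC.mem_Bq_of_le hR k3
      · show ω _ = true
        rw [hω _ k4]
        exact k5
  exact (key _ h1).2

theorem image_sh_mem {v : ℤ × ℤ} : (v.1 + 1, v.2) ∈ D.image (fun v => (v.1 + 1, v.2)) ↔ v ∈ D := by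
  rw [Finset.mem_image]
  constructor
  · rintro ⟨a, ha, h⟩
    rw [Prod.mk.injEq] at h
    have : a = v := Prod.ext (by omega) h.2
    rwa [← this]
  · exact fun h => ⟨v, h, rfl⟩

/-- The closed squares outside. -/
theorem conn_closed (hR : R₁ < R)
    (h : OneP (bxx (FKA.sh z) R₁) (D.image fun v => (v.1 + 1, v.2)) (du η))
    (hω : ∀ v, v ∉ D → ω v = η v) {v w : ℤ × ℤ} (hv : nm (v - z) ≤ R₁) (hvD : v ∉ D)
    (hv1 : η v = false) (hw : nm (w - z) ≤ R₁) (hwD : w ∉ D) (hw1 : η w = false) :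
    Conn z R ω (FK.da v) (FK.da w) := by
  have tr : ∀ {v : ℤ × ℤ}, nm (v - z) ≤ R₁ → ((v.1 + 1, v.2) : ℤ × ℤ) ∈ bxx (FKA.sh z) R₁ := by
    intro v hv
    rw [mem_bxx]
    simp only [FKA.sh, nm, Prod.fst_sub, Prod.snd_sub, max_le_iff, abs_le] at hv ⊢
    omega
  have duv : ∀ {v : ℤ × ℤ}, η v = false → du η (v.1 + 1, v.2) = true := by
    intro v hv
    unfold du
    simp only [add_sub_cancel_right]
    rw [hv]
    rfl
  have ev : ∀ v : ℤ × ℤ, Even (((FK.da v).1 + 1) + (FK.da v).2) := by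
    intro v
    have := H161.odd_da v
    rw [Int.odd_iff] at this
    rw [Int.even_iff]
    omega
  have co : ∀ v : ℤ × ℤ, Cor ((v.1 + 1, v.2) : ℤ × ℤ) ((FK.da v).1 + 1, (FK.da v).2) := by
    intro v
    obtain ⟨h1, h2⟩ := cor_da' v
    refine ⟨?_, h2⟩
    show (FK.da v).1 + 1 = v.1 + 1 ∨ (FK.da v).1 + 1 = v.1 + 1 + 1
    omega
  have h1 := h (v.1 + 1, v.2) (tr hv) (fun h' => hvD (image_sh_mem.1 h')) (duv hv1)
    (w.1 + 1, w.2) (tr hw) (fun h' => hwD (image_sh_mem.1 h')) (duv hw1)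
    ((FK.da v).1 + 1, (FK.da v).2) ((FK.da w).1 + 1, (FK.da w).2) (ev v) (ev w) (co v) (co w)
  have key : ∀ u, ReflTransGen (PStep {z' | z' ∈ bxx (FKA.sh z) R₁ ∧
      z' ∉ D.image (fun v => (v.1 + 1, v.2)) ∧ du η z' = true}) ((FK.da v).1 + 1, (FK.da v).2) u →
      Odd ((u.1 - 1) + u.2) ∧ Conn z R ω (FK.da v) (u.1 - 1, u.2) := by
    intro u hu
    induction hu with
    | refl =>
      simp only [add_sub_cancel_right]
      exact ⟨H161.odd_da v, ReflTransGen.refl⟩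
    | @tail a b _ hab ih =>
      obtain ⟨k1, k2, k3, k4, k5⟩ := hab
      set m : ℤ × ℤ := (min (a.1 - 1) (b.1 - 1), min a.2 b.2) with hm
      have hm' : ((m.1 + 1, m.2) : ℤ × ℤ) = (min a.1 b.1, min a.2 b.2) := by
        simp only [hm]
        rw [min_sub_sub_right]
        simp
      have hpar : Odd ((b.1 - 1) + b.2) := by
        have := ih.1
        rw [Int.odd_iff] at this ⊢
        omega
      refine ⟨hpar, ih.2.tail ⟨?_, Or.inr ⟨ih.1, ?_, ?_, ?_⟩⟩⟩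
      · rw [← hm', mem_bxx] at k3
        refine QC.mem_Bq_of_le hR ?_
        simp only [FKA.sh, nm, Prod.fst_sub, Prod.snd_sub, max_le_iff, abs_le] at k3 ⊢
        simp only [hm] at k3
        omega
      · show b.1 - 1 = a.1 - 1 + 1 ∨ b.1 - 1 = a.1 - 1 - 1
        omega
      · exact k2
      · show ¬ ω m = true
        rw [← hm'] at k4 k5
        have hmD : m ∉ D := fun h' => k4 (image_sh_mem.2 h')
        rw [hω _ hmD]
        unfold du at k5
        simp only [add_sub_cancel_right] at k5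
        simpa using k5
  have h2 := (key _ h1).2
  simpa using h2

open Classical in
/-- **Frozen squares of one colour near a box.** -/
theorem frz1_of_oneC {R' : ℤ} (hR' : R' ≤ R₁) (hR : R₁ < R) (h : OneC z R₁ D η) {c : Bool}
    (hc : ∀ v ∈ FK.Bq z R, v ∉ D → η v ≠ c) :
    ∃ P : Finset (ℤ × ℤ), P.card ≤ 2 ∧ Frz1 D η z R' R c P := by
  obtain ⟨h1, h2⟩ := h
  set P1 : Finset (ℤ × ℤ) := if hx : ∃ w, nm (w - z) ≤ R₁ ∧ w ∉ D ∧ η w = true then
    {FK.pa hx.choose} else ∅ with hP1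
  set P2 : Finset (ℤ × ℤ) := if hx : ∃ w, nm (w - z) ≤ R₁ ∧ w ∉ D ∧ η w = false then
    {FK.da hx.choose} else ∅ with hP2
  have c1 : P1.card ≤ 1 := by
    rw [hP1]
    split_ifs <;> simp
  have c2 : P2.card ≤ 1 := by
    rw [hP2]
    split_ifs <;> simp
  refine ⟨P1 ∪ P2, (card_union_le _ _).trans (by omega), hc, fun S hS v hv hvR => ?_⟩
  have hω : ∀ v, v ∉ D → cf D η S v = η v := fun v hv => cf_out hv
  have hvR1 : nm (v - z) ≤ R₁ := hvR.trans hR'
  rw [hω v hv]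
  cases hb : η v
  · have hx : ∃ w, nm (w - z) ≤ R₁ ∧ w ∉ D ∧ η w = false := ⟨v, hvR1, hv, hb⟩
    refine ⟨FK.da hx.choose, ?_, ?_⟩
    · rw [Finset.mem_union, hP2, dif_pos hx]
      exact Or.inr (Finset.mem_singleton_self _)
    · obtain ⟨k1, k2, k3⟩ := hx.choose_spec
      exact conn_closed hR h2 hω hvR1 hv hb k1 k2 k3
  · have hx : ∃ w, nm (w - z) ≤ R₁ ∧ w ∉ D ∧ η w = true := ⟨v, hvR1, hv, hb⟩
    refine ⟨FK.pa hx.choose, ?_, ?_⟩
    · rw [Finset.mem_union, hP1, dif_pos hx]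
      exact Or.inl (Finset.mem_singleton_self _)
    · obtain ⟨k1, k2, k3⟩ := hx.choose_spec
      exact conn_open hR h1 hω hvR1 hv hb k1 k2 k3

end Vale.Agent.P167.H174.CT
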