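import Vale.Agent.P167.H476.Q.Fin
import Vale.Agent.P167.QC.Ent

/-!
# P167, general `q`, continuity: three strands (law)

`three_law`: 476's middle strand lemma with 161's second moment of the number of the strands.
-/

namespace Vale.Agent.P167.H174.CT

open Finset Vale.Agent.P167.FK Vale.Agent.P167.FKA
open Vale.Agent.P167.H476.Q (M3 E0 En Vis mem_E0 lemma_M)
open Vale.Agent.P167.H166 (bxx mem_bxx mem_Bq)
open Vale.Agent.P167.H161 (Conn)

variable {Q : ℝ} {D : Finset (ℤ × ℤ)} {η : Cfg}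

theorem ex_box (z : ℤ × ℤ) (R : ℤ) : H632.Ex (↑(FK.Bq z R) : Set (ℤ × ℤ)) := by
  have h := H632.ex_rect (z.1 - R) (z.1 + R) (z.2 - R) (z.2 + R)
  have e : (↑(FK.Bq z R) : Set (ℤ × ℤ)) =
      {v | z.1 - R ≤ v.1 ∧ v.1 < z.1 + R ∧ z.2 - R ≤ v.2 ∧ v.2 < z.2 + R} := by
    ext v
    rw [Finset.mem_coe, mem_Bq, Set.mem_ofPred_eq]
  rw [e]
  exact h

/-- The event that there are three strands of `Bq z R` near each other in `Bq z r`. -/
def T3 (z : ℤ × ℤ) (r R : ℤ) (h : ℕ) : Set Cfg :=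
  {ω | ∃ em el er, M3 (FK.Bq z R) (↑(FK.Bq z r)) h em el er ω}

/-- The frozen squares near `z`: none of the colour `c` in the box of radius `R`, those of the box of
radius `R'` are joined in the box of radius `R` to the sites of `P`. -/
structure Frz1 (D : Finset (ℤ × ℤ)) (η : Cfg) (z : ℤ × ℤ) (R' R : ℤ) (c : Bool)
    (P : Finset (ℤ × ℤ)) : Prop where
  col : ∀ v ∈ FK.Bq z R, v ∉ D → η v ≠ c
  con : ∀ S ⊆ D, ∀ v, v ∉ D → nm (v - z) ≤ R' →
    ∃ q ∈ P, Conn z R (cf D η S) (H161.cor (cf D η S v) v) q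

/-- In the bulk. -/
theorem Frz1.bulk {z : ℤ × ℤ} {R' R : ℤ} (hR : R' < R) (h : FK.Bq z R ⊆ D) (c : Bool) :
    Frz1 D η z R' R c ∅ where
  col v hv hn := absurd (h hv) hn
  con S _ v hn hv := absurd (h (by
    rw [mem_Bq]
    simp only [nm, Prod.fst_sub, Prod.snd_sub, max_le_iff, abs_le] at hv
    omega)) hn

theorem en_le (z : ℤ × ℤ) (r R : ℤ) (ω : Cfg) :
    En (FK.Bq z R) (↑(FK.Bq z r)) ω ≤ (QC.Ent z r R ω).ncard := by
  classical
  unfold En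
  rw [← Set.ncard_coe_finset]
  refine Set.ncard_le_ncard ?_ (QC.ent_finite z r R ω)
  intro e he
  rw [Finset.mem_coe, Finset.mem_filter] at he
  obtain ⟨h1, n, h2, h3⟩ := he
  exact ⟨(mem_E0.1 h1).2, n, h2, h3⟩

theorem pow_pos_ind (z : ℤ × ℤ) (r R : ℤ) (h : ℕ) (ω : Cfg) :
    0 ≤ (T3 z r R h).indicator (1 : Cfg → ℝ) ω ∧ (T3 z r R h).indicator (1 : Cfg → ℝ) ω ≤ 1 := by
  by_cases h1 : ω ∈ T3 z r R h
  · rw [Set.indicator_of_mem h1]
    simp
  · rw [Set.indicator_of_notMem h1]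
    simp

/-- **Three strands, with rate.** -/
theorem three_law (hQ : 1 ≤ Q) (hRSW : RSW Q) : ∃ (κ : ℤ) (α C : ℝ), 4 ≤ κ ∧ 0 < α ∧ 0 < C ∧
    ∀ (z : ℤ × ℤ) (r R' R : ℤ) (h : ℕ), 1 ≤ r → κ * r ≤ R' → R' < R →
    ∀ (D : Finset (ℤ × ℤ)) (η : Cfg), Good η → ∀ (c : Bool) (P : Finset (ℤ × ℤ)),
    Frz1 D η z R' R c P → ∀ G : Cfg → ℝ, (∀ ω, 0 ≤ G ω) → Ind (D ∩ FK.Bq z R) G →
      Ex Q D η (fun ω => G ω * (T3 z r R h).indicator 1 ω) ≤
        C * 2 ^ P.card * (((h : ℝ) + 1) / R) ^ α * Ex Q D η G := by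
  have hQ0 : 0 < Q := by linarith
  obtain ⟨α, Ca, hα, hCa, hdec, -⟩ := arm_fk hQ hRSW
  obtain ⟨κ, hκ, hent⟩ := QC.ent_two hQ hRSW
  refine ⟨κ, α, 8 * Q ^ 2 * Ca * 4 ^ α + 4 ^ α, hκ, hα, by positivity, ?_⟩
  intro z r R' R h hr hκR hR D η hη c P hF G hG0 hG
  have hR4 : 4 * r ≤ R' := le_trans (mul_le_mul_of_nonneg_right hκ (by omega)) hκR
  have hR0 : (0 : ℝ) < R := by exact_mod_cast (by omega : 0 < R)
  have hE0 : 0 ≤ Ex Q D η G := Ex_nonneg hQ0 fun _ _ => hG0 _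
  have hx0 : 0 ≤ ((h : ℝ) + 1) / R := by positivity
  have h2P : (1 : ℝ) ≤ 2 ^ P.card := one_le_pow₀ (by norm_num)
  set l : ℤ := R - r - 1 with hl
  by_cases hbig : (h : ℤ) + 1 < l
  · have hB' : ∀ v ∈ (↑(FK.Bq z r) : Set (ℤ × ℤ)), ∀ w ∈ FK.Bq v l, w ∈ FK.Bq z R := by
      intro v hv w hw
      rw [Finset.mem_coe, mem_Bq] at hv
      rw [mem_Bq] at hw ⊢
      omega
    have h1 := lemma_M (h := h) hQ hdec (B := FK.Bq z R) (ex_box z R) hbig hB' hη hF.col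
      hG0 hG
    have h2 := hent z r R' R hr hκR hR D η hη P hF.con G hG0 (fun ω ω' hw => hG ω ω' fun v hv =>
      hw v fun hv' => hv (by
        rw [Finset.mem_inter] at hv' ⊢
        refine ⟨hv'.1, ?_⟩
        have h3 := hv'.2
        rw [mem_bxx] at h3
        rw [mem_Bq]
        simp only [nm, Prod.fst_sub, Prod.snd_sub, max_le_iff, abs_le] at h3
        omega))
    have h3 : Ex Q D η (fun ω => G ω * (En (FK.Bq z R) (↑(FK.Bq z r)) ω : ℝ) ^ 2) ≤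
        4 * 2 ^ P.card * Ex Q D η G := by
      refine le_trans (Ex_mono hQ0 fun S _ => mul_le_mul_of_nonneg_left ?_ (hG0 _)) h2
      exact pow_le_pow_left₀ (Nat.cast_nonneg _) (by exact_mod_cast en_le z r R _) 2
    have hlR : ((h : ℝ) + 1) / l ≤ 4 * (((h : ℝ) + 1) / R) := by
      have hl0 : (0 : ℝ) < l := by exact_mod_cast (by omega : 0 < l)
      rw [mul_div_assoc', div_le_div_iff₀ hl0 hR0]
      have h5 : (R : ℝ) ≤ 4 * l := by exact_mod_cast (by omega : R ≤ 4 * l)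
      have h6 := mul_le_mul_of_nonneg_left h5 (by positivity : 0 ≤ (h : ℝ) + 1)
      linarith
    have h4 : (((h : ℝ) + 1) / l) ^ α ≤ 4 ^ α * (((h : ℝ) + 1) / R) ^ α := by
      rw [← Real.mul_rpow (by norm_num) hx0]
      refine Real.rpow_le_rpow (div_nonneg (by positivity) ?_) hlR hα.le
      exact_mod_cast (by omega : 0 ≤ l)
    have hpl : 0 ≤ (((h : ℝ) + 1) / l) ^ α := Real.rpow_nonneg (div_nonneg (by positivity) (by
      exact_mod_cast (by omega : 0 ≤ l))) _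
    calc Ex Q D η (fun ω => G ω * (T3 z r R h).indicator 1 ω)
        ≤ 2 * Q ^ 2 * Ca * (((h : ℝ) + 1) / l) ^ α *
          Ex Q D η (fun ω => G ω * (En (FK.Bq z R) (↑(FK.Bq z r)) ω : ℝ) ^ 2) := h1
      _ ≤ 2 * Q ^ 2 * Ca * (4 ^ α * (((h : ℝ) + 1) / R) ^ α) * (4 * 2 ^ P.card * Ex Q D η G) := by
          refine mul_le_mul (mul_le_mul_of_nonneg_left h4 (by positivity)) h3
            (Ex_nonneg hQ0 fun _ _ => mul_nonneg (hG0 _) (by positivity)) (by positivity)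
      _ ≤ _ := by
          have : 0 ≤ 4 ^ α * 2 ^ P.card * (((h : ℝ) + 1) / R) ^ α * Ex Q D η G := by positivity
          nlinarith
  · -- trivial bound
    have h1 : Ex Q D η (fun ω => G ω * (T3 z r R h).indicator 1 ω) ≤ Ex Q D η G := by
      refine Ex_mono hQ0 fun S _ => ?_
      exact mul_le_of_le_one_right (hG0 _) (pow_pos_ind z r R h _).2
    refine h1.trans ?_
    have h2 : 1 ≤ 4 ^ α * (((h : ℝ) + 1) / R) ^ α := by
      rw [← Real.mul_rpow (by norm_num) hx0]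
      refine Real.one_le_rpow ?_ hα.le
      rw [mul_div_assoc', one_le_div hR0]
      have h5 : R ≤ 4 * ((h : ℤ) + 1) := by omega
      have h6 : (R : ℝ) ≤ 4 * ((h : ℝ) + 1) := by exact_mod_cast h5
      exact h6
    have h3 : 0 ≤ 8 * Q ^ 2 * Ca * 4 ^ α * (2 ^ P.card * (((h : ℝ) + 1) / R) ^ α *
      Ex Q D η G) := by positivity
    have h4 : Ex Q D η G ≤ (4 ^ α * (((h : ℝ) + 1) / R) ^ α) * (2 ^ P.card * Ex Q D η G) := by
      have h5 : Ex Q D η G ≤ 2 ^ P.card * Ex Q D η G := le_mul_of_one_le_left hE0 h2P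
      exact h5.trans (le_mul_of_one_le_left (by positivity) h2)
    linarith

/-- **Three strands somewhere**: sum over a finite set of centres, probabilities. -/
theorem three_sum (hQ : 1 ≤ Q) (hRSW : RSW Q) : ∃ (κ : ℤ) (α C : ℝ), 4 ≤ κ ∧ 0 < α ∧ 0 < C ∧
    ∀ (Z : Finset (ℤ × ℤ)) (r R' R : ℤ) (h m : ℕ), 1 ≤ r → κ * r ≤ R' → R' < R →
    ∀ (D : Finset (ℤ × ℤ)) (η : Cfg), Good η →
    (∀ z ∈ Z, ∃ (c : Bool) (P : Finset (ℤ × ℤ)), P.card ≤ m ∧ Frz1 D η z R' R c P) →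
      Pr Q D η {ω | ∃ z ∈ Z, ω ∈ T3 z r R h} ≤ Z.card * (C * 2 ^ m * (((h : ℝ) + 1) / R) ^ α) := by
  classical
  have hQ0 : 0 < Q := by linarith
  obtain ⟨κ, α, C, hκ, hα, hC, hlaw⟩ := three_law hQ hRSW
  refine ⟨κ, α, C, hκ, hα, hC, fun Z r R' R h m hr hκR hR D η hη hZ => ?_⟩
  have hR4 : 4 * r ≤ R' := le_trans (mul_le_mul_of_nonneg_right hκ (by omega)) hκR
  have hR0 : (0 : ℝ) < R := by exact_mod_cast (by omega : 0 < R)
  have h1 : Pr Q D η {ω | ∃ z ∈ Z, ω ∈ T3 z r R h} ≤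
      ∑ z ∈ Z, Pr Q D η (T3 z r R h) := by
    unfold Pr
    rw [← Ex_sum]
    refine Ex_mono hQ0 fun S _ => ?_
    by_cases h2 : ∃ z ∈ Z, cf D η S ∈ T3 z r R h
    · obtain ⟨z, hz, h3⟩ := h2
      rw [Set.indicator_of_mem (show cf D η S ∈ {ω | ∃ z ∈ Z, ω ∈ T3 z r R h} from ⟨z, hz, h3⟩)]
      refine le_trans (le_of_eq ?_) (Finset.single_le_sum (f := fun z =>
        (T3 z r R h).indicator (1 : Cfg → ℝ) (cf D η S))
        (fun z _ => (pow_pos_ind z r R h _).1) hz)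
      show _ = (T3 z r R h).indicator (1 : Cfg → ℝ) (cf D η S)
      rw [Set.indicator_of_mem h3]
    · rw [Set.indicator_of_notMem (show cf D η S ∉ {ω | ∃ z ∈ Z, ω ∈ T3 z r R h} from h2)]
      exact Finset.sum_nonneg fun z _ => (pow_pos_ind z r R h _).1
  refine h1.trans ?_
  rw [← nsmul_eq_mul]
  refine Finset.sum_le_card_nsmul _ _ _ fun z hz => ?_
  obtain ⟨c, P, hP, hF⟩ := hZ z hz
  have h2 := hlaw z r R' R h hr hκR hR D η hη c P hF (fun _ => 1) (fun _ => zero_le_one)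
    (fun _ _ _ => rfl)
  rw [Ex_const hQ0, mul_one] at h2
  simp only [one_mul] at h2
  refine h2.trans ?_
  have h3 : (2 : ℝ) ^ P.card ≤ 2 ^ m := pow_le_pow_right₀ (by norm_num) hP
  exact mul_le_mul_of_nonneg_right (mul_le_mul_of_nonneg_left h3 hC.le)
    (Real.rpow_nonneg (by positivity) _)

end Vale.Agent.P167.H174.CT
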