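import Vale.Agent.P167.H174.CT.Thk

/-!
# P167, general `q`, continuity: the thick configuration, the law and the frozen pieces
-/

namespace Vale.Agent.P167.H174.CT

open Finset Relation Vale.Agent.P167.FK Vale.Agent.P167.FKA
open Vale.Agent.P145.FB (PStep)
open Vale.Agent.P167.E6 (edges Encloses IsPolygon dir face)
open Vale.Agent.P167.H718 (Dq etaQ wE mem_Dq' mem_wE wE_sub)
open Vale.Agent.P167.H166 (mem_Bq)
open Vale.Agent.P167.H161 (Conn FW FO Fq ovq)
open Vale.Agent.P167.QC (par conn_cor par_true par_false)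
open Vale.Agent.P167.H318 (Adj)
open Vale.Agent.P167.H476.Q (Near)

variable {n : ℕ} {p : ZMod n → ℤ × ℤ} {S : Finset (ℤ × ℤ)} {k : ℕ} {z : ℤ × ℤ} {R : ℤ} {c : Bool}

/-! ### The law -/

theorem sameM_of_PC {Q : ℝ} (hQ : 0 < Q) {D : Finset (ℤ × ℤ)} {η η' : Cfg} (hη : Good η)
    (hη' : Good η') (h : ∀ T ⊆ D, ∀ a ∈ D, a ∉ T →
      (PC (cf D η T) (pa a) (pb a) ↔ PC (cf D η' T) (pa a) (pb a))) : SameM Q D η η' := by
  classical
  intro F
  have hloc : Loc D (fun ω => F (rep D η ω)) := by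
    intro ω ω' hw
    show F _ = F _
    congr 1
    funext v
    unfold rep
    split_ifs with hv
    · exact hw v hv
    · rfl
  rw [← H167.Q.Ex_eq_of_PC hQ hη hη' h hloc]
  exact Ex_congr fun S _ => by rw [rep_cf]

open Classical in
/-- The wired vertices are joined. -/
theorem wired_PC (hp : IsPolygon p) (T : Finset (ℤ × ℤ)) {i : ℕ} (hi : k ≤ i) (hi' : i < n) :
    PC (cf (Dq S p k) (etaQ p k) T) (H192.ro (p k)) (H192.ro (p i)) := by
  induction i, hi using Nat.le_induction with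
  | base => exact ReflTransGen.refl
  | succ i hi ih =>
    refine (ih (by omega)).tail ?_
    obtain ⟨r, hr⟩ := hp.2.2 (i : ZMod n)
    have e1 : p ((i + 1 : ℕ) : ZMod n) = p i + dir r := by
      rw [← hr]
      push_cast
      rfl
    rw [e1]
    obtain ⟨h1, h2⟩ := H192.ro_dir (p i) r
    refine ⟨h1, h2, ?_⟩
    have h3 : H192.ed (H192.sq s(p i, p i + dir r)) ∈ wE p k := by
      rw [H192.ed_sq ⟨p i, r, rfl⟩, mem_wE]
      exact ⟨i, hi, hi', by rw [← hr]⟩
    rw [← H192.sq_dir]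
    show cf (Dq S p k) (etaQ p k) T _ = true
    rw [cf_out (wE_notMem h3)]
    exact etaQ_true.2 h3

open Classical in
theorem pc_thk (hp : IsPolygon p) (hS : Encloses p S) (hN : NearC p k z R true)
    (T : Finset (ℤ × ℤ)) {x y w w' : ℤ × ℤ} (hx : Even (x.1 + x.2)) (hw : H192.ed w ∈ edges S)
    (hxw : Cor w x) (hw' : H192.ed w' ∈ edges S) (hyw : Cor w' y)
    (h : PC (cf (Dq S p k) (thk p k S z R true) T) x y) :
    PC (cf (Dq S p k) (etaQ p k) T) x y := by
  set V : ℤ × ℤ → Prop := fun t => ∃ w, H192.ed w ∈ edges S ∧ Cor w t with hV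
  have key : ∀ t, PC (cf (Dq S p k) (thk p k S z R true) T) x t → Even (t.1 + t.2) ∧
      ((PC (cf (Dq S p k) (etaQ p k) T) x t ∧ V t) ∨
        (PC (cf (Dq S p k) (etaQ p k) T) x (H192.ro (p k)) ∧ ¬ V t)) := by
    intro t ht
    induction ht with
    | refl => exact ⟨hx, Or.inl ⟨ReflTransGen.refl, w, hw, hxw⟩⟩
    | @tail t t' _ hst ih =>
      obtain ⟨ihe, ih⟩ := ih
      have he' : Even (t'.1 + t'.2) := H192.even_of_PStep hst ihe
      refine ⟨he', ?_⟩
      set m : ℤ × ℤ := (min t.1 t'.1, min t.2 t'.2) with hm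
      obtain ⟨c1, c2⟩ := cor_of_step hst
      have hmo : cf (Dq S p k) (thk p k S z R true) T m = true := hst.2.2
      by_cases h1 : cf (Dq S p k) (etaQ p k) T m = true
      · -- the square is open for `etaQ`
        have h2 : H192.ed m ∈ edges S := by
          by_cases h3 : m ∈ Dq S p k
          · exact (mem_Dq'.1 h3).1
          · rw [cf_out h3] at h1
            exact wE_sub hp hS (etaQ_true.1 h1)
        have h3 : V t := ⟨m, h2, c1⟩
        have h4 : V t' := ⟨m, h2, c2⟩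
        rcases ih with ⟨h5, -⟩ | ⟨-, h5⟩
        · exact Or.inl ⟨h5.tail ⟨hst.1, hst.2.1, h1⟩, h4⟩
        · exact absurd h3 h5
      · -- an extra square
        have h2 : m ∉ Dq S p k := by
          intro h3
          apply h1
          unfold cf at hmo ⊢
          rw [if_pos h3] at hmo ⊢
          exact hmo
        have h3 : H192.ed m ∉ wE p k := by
          intro h4
          apply h1
          rw [cf_out h2]
          exact etaQ_true.2 h4
        have h4 : m ∈ FK.Bq z R := by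
          by_contra h5
          apply h1
          rw [cf_out h2] at hmo ⊢
          unfold thk at hmo
          rwa [if_neg fun h6 => h5 h6.1] at hmo
        have h5 : H192.ed m ∉ edges S := fun h6 => h2 (mem_Dq'.2 ⟨h6, h3⟩)
        have hwi : ∀ s, Cor m s → Even (s.1 + s.2) → V s →
            PC (cf (Dq S p k) (etaQ p k) T) (H192.ro (p k)) s := by
          rintro s hs he ⟨u, hu1, hu2⟩
          obtain ⟨i, hi, rfl, -⟩ := on_poly hp hS h5 hu1 hs hu2 (Int.even_iff.1 he)
          exact wired_PC hp T ((hN i hi (cor_near hs (bq_nm h4))).1 rfl) hi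
        have h6 : PC (cf (Dq S p k) (etaQ p k) T) x (H192.ro (p k)) := by
          rcases ih with ⟨h7, h8⟩ | ⟨h7, -⟩
          · exact h7.trans (H718.PC_symm (hwi t c1 ihe h8))
          · exact h7
        by_cases h7 : V t'
        · exact Or.inl ⟨h6.trans (hwi t' c2 he' h7), h7⟩
        · exact Or.inr ⟨h6, h7⟩
  rcases (key y h).2 with ⟨h1, -⟩ | ⟨-, h1⟩
  · exact h1
  · exact absurd ⟨w', hw', hyw⟩ h1

theorem cor_pab (v : ℤ × ℤ) : Cor v (pa v) ∧ Cor v (pb v) := by
  obtain ⟨a, b⟩ := v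
  by_cases h : Even (a + b) <;> simp [FK.pa, FK.pb, Cor, h]

/-- The edges of the thick configuration do not change the law. -/
theorem sameM_thk (hp : IsPolygon p) (hS : Encloses p S) {Q : ℝ} (hQ : 0 < Q)
    (hN : NearC p k z R c) : SameM Q (Dq S p k) (thk p k S z R c) (etaQ p k) := by
  classical
  refine sameM_of_PC hQ good_thk H718.good_etaQ fun T hT a ha _ => ?_
  cases c
  · rw [thk_false hp hN]
  · have h1 := (mem_Dq'.1 ha).1
    constructor
    · exact pc_thk hp hS hN T (H161.even_pa a) h1 (cor_pab a).1 h1 (cor_pab a).2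
    · intro h
      generalize pb a = y at h ⊢
      unfold PC at h ⊢
      induction h with
      | refl => exact ReflTransGen.refl
      | @tail s t _ hst ih =>
      refine ih.tail ⟨hst.1, hst.2.1, ?_⟩
      have h2 : cf (Dq S p k) (etaQ p k) T (min s.1 t.1, min s.2 t.2) = true := hst.2.2
      show cf (Dq S p k) (thk p k S z R true) T _ = true
      by_cases h3 : (min s.1 t.1, min s.2 t.2) ∈ Dq S p k
      · unfold cf at h2 ⊢
        rw [if_pos h3] at h2 ⊢
        exact h2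
      · rw [cf_out h3] at h2 ⊢
        exact thk_fw hp hN (etaQ_true.1 h2)

/-! ### The frozen squares -/

theorem conn_adj {ω : Cfg} {v w : ℤ × ℤ} {b : Bool} (h : Adj v w) (hv : v ∈ FK.Bq z R)
    (hw : w ∈ FK.Bq z R) (hvb : ω v = b) (hwb : ω w = b) :
    Conn z R ω (H161.cor b v) (H161.cor b w) := by
  obtain ⟨s, h1, h2, h3⟩ := adj_cor h b
  exact (H161.Conn.symm (conn_cor hv hvb h1 h3)).trans (conn_cor hw hwb h2 h3)

/-- A chain of squares of one colour. -/
theorem chain_conn {ω : Cfg} {b : Bool} {l : ℕ} {x : ℕ → ℤ × ℤ}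
    (ha : ∀ i < l, Adj (x i) (x (i + 1))) (hb : ∀ i ≤ l, x i ∈ FK.Bq z R ∧ ω (x i) = b) :
    Conn z R ω (H161.cor b (x 0)) (H161.cor b (x l)) := by
  induction l with
  | zero => exact ReflTransGen.refl
  | succ l ih =>
    exact (ih (fun i hi => ha i (by omega)) fun i hi => hb i (by omega)).trans
      (conn_adj (ha l (by omega)) (hb l (by omega)).1 (hb (l + 1) le_rfl).1 (hb l (by omega)).2
        (hb (l + 1) le_rfl).2)

theorem par_eq (b : Bool) : par b = 0 ∨ par b = 1 := by cases b <;> simp [par]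

/-- **The frozen squares near a box of a lattice polygon**: thick configuration, few pieces. -/
theorem frz1_thk (hp : IsPolygon p) (hS : Encloses p S) (hk : k + 1 < n) {cl : ℕ → ℕ}
    (hc : Monotone cl) {M : ℕ} (hM : ∀ i < n, cl i < M) {ρ : ℤ}
    (hρ : ∀ i j, i < n → j < n → cl i = cl j →
      nm (H192.ro (p i) - H192.ro (p j)) ≤ ρ) :
    ∀ (z : ℤ × ℤ) (R' R : ℤ) (c : Bool), 0 ≤ R' → 0 ≤ ρ → R' + ρ + 8 ≤ R → NearC p k z R c →
      ∃ P : Finset (ℤ × ℤ), P.card ≤ 2 * M + 1 ∧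
        Frz1 (Dq S p k) (thk p k S z R c) z R' R (!c) P := by
  classical
  obtain ⟨P, hP, hfrz⟩ := QC.frz2 hp hS hc (by omega : k < n) hM hρ
  intro z R' R c hR' hρ0 hR hN
  refine ⟨insert (H161.cor c z) P, (Finset.card_insert_le _ _).trans (by omega), ?_, ?_⟩
  · intro v hv hvD
    unfold thk
    rw [if_pos ⟨hv, hvD⟩]
    cases c <;> simp
  intro T hT v hvD hv
  set ω : Cfg := cf (Dq S p k) (thk p k S z R c) T with hω
  have hout : ∀ u, u ∉ Dq S p k → u ∈ FK.Bq z R → ω u = c := by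
    intro u hu hu'
    rw [hω, cf_out hu]
    unfold thk
    rw [if_pos ⟨hu', hu⟩]
  have hfr := (hfrz z (R' + 4) R (by omega) ω).1
  rw [hω, ovq_thk hp hS (by omega) hN T, ← hω] at hfr
  have hvB : v ∈ FK.Bq z (R' + 1) := nm_bq (by omega) hv
  have hsub : ∀ u, u ∈ FK.Bq z (R' + 1) → u ∈ FK.Bq z R := fun u hu => nm_bq (by omega) (bq_nm hu)
  rw [hout v hvD (hsub v hvB)]
  by_cases hex : ∃ u ∈ FK.Bq z (R' + 1), u ∈ Dq S p k
  swap
  · -- no square of the domain in the box
    push Not at hex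
    have hz : z ∈ FK.Bq z (R' + 1) := by rw [mem_Bq]; omega
    obtain ⟨l, -, x, h1, h2, h3, h4⟩ := near_box hz _ v hvB rfl
    have h5 := chain_conn (z := z) (R := R) (ω := ω) (b := c) h3 fun i hi =>
      ⟨hsub _ (h4 i hi), hout _ (hex _ (h4 i hi)) (hsub _ (h4 i hi))⟩
    rw [h1, h2] at h5
    exact ⟨_, Finset.mem_insert_self _ _, h5⟩
  obtain ⟨u, hu, huD⟩ := hex
  obtain ⟨l, -, x, h1, h2, h3, h4⟩ := near_box hu _ v hvB rfl
  -- the last square off the domain
  have hfind : ∃ i, i ≤ l ∧ x i ∈ Dq S p k := ⟨l, le_rfl, by rw [h2]; exact huD⟩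
  set i0 := Nat.find hfind with hi0
  obtain ⟨g1, g2⟩ := Nat.find_spec hfind
  have g3 : ∀ i < i0, x i ∉ Dq S p k := fun i hi h' => Nat.find_min hfind hi ⟨by omega, h'⟩
  have g4 : 0 < i0 := by
    rcases Nat.eq_zero_or_pos i0 with h5 | h5
    · exfalso
      apply hvD
      rw [← h1, ← h5]
      exact g2
    · exact h5
  set v' := x (i0 - 1) with hv'
  set w := x i0 with hw
  have hadj : Adj v' w := by
    have := h3 (i0 - 1) (by omega)
    rwa [show i0 - 1 + 1 = i0 by omega] at this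
  have hv'D : v' ∉ Dq S p k := g3 _ (by omega)
  have hv'B : v' ∈ FK.Bq z (R' + 1) := h4 (i0 - 1) (by omega)
  have hv'c : ω v' = c := hout _ hv'D (hsub _ hv'B)
  have hconn : Conn z R ω (H161.cor c v) (H161.cor c v') := by
    have h5 := chain_conn (z := z) (R := R) (ω := ω) (b := c) (l := i0 - 1) (x := x)
      (fun i hi => h3 i (by omega)) fun i hi =>
        ⟨hsub _ (h4 i (by omega)), hout _ (g3 i (by omega)) (hsub _ (h4 i (by omega)))⟩
    rwa [h1] at h5
  suffices hq : ∃ q ∈ P, Conn z R ω (H161.cor c v') q by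
    obtain ⟨q, hq1, hq2⟩ := hq
    exact ⟨q, Finset.mem_insert_of_mem hq1, hconn.trans hq2⟩
  have hwE : H192.ed w ∈ edges S := (mem_Dq'.1 g2).1
  have hv'n : nm (v' - z) ≤ R' + 1 := bq_nm hv'B
  by_cases hwired : H192.ed v' ∈ wE p k
  · -- a wired square
    obtain ⟨q, hq1, hq2⟩ := hfr v' (Or.inl (QC.mem_FW.2 hwired)) (by omega)
    rw [hv'c] at hq2
    exact ⟨q, hq1, hq2⟩
  have hv'S : H192.ed v' ∉ edges S := fun h' => hv'D (mem_Dq'.2 ⟨h', hwired⟩)
  obtain ⟨s, k1, k2, k3⟩ := adj_cor hadj true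
  obtain ⟨i, hi, rfl, d, m1, m2, m3⟩ := on_poly hp hS hv'S hwE k1 k2 k3
  have hsn : nm (H192.ro (p i) - z) ≤ R' + 2 := by
    have := cor_near k1 hv'n
    omega
  have hki := hN i hi (by omega)
  cases c
  · -- free
    have hik : i < k := by
      by_contra h'
      exact Bool.false_ne_true (hki.2 (by omega))
    have hFO : v' ∈ FO p k S := by
      refine ⟨i, d - 1, hik, m2, ?_, ?_⟩
      · rw [E2.fin4_1]
        exact m1
      · rw [E2.fin4_1]
        exact m3
    obtain ⟨q, hq1, hq2⟩ := hfr v' (Or.inr hFO) (by omega)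
    rw [hv'c] at hq2
    exact ⟨q, hq1, hq2⟩
  · -- wired
    have hik : k ≤ i := hki.1 rfl
    -- a wired square at the vertex
    obtain ⟨w', hw1, hw2⟩ : ∃ w', H192.ed w' ∈ wE p k ∧ Cor w' (H192.ro (p i)) := by
      by_cases hi' : i + 1 < n
      · obtain ⟨d, hd⟩ := hp.2.2 (i : ZMod n)
        refine ⟨H192.sq s(p i, p i + dir d), ?_, cor_of_sq _ _⟩
        rw [H192.ed_sq ⟨p i, d, rfl⟩, mem_wE]
        exact ⟨i, hik, hi', by rw [← hd]⟩
      · obtain ⟨d, hd⟩ := hp.2.2 ((i - 1 : ℕ) : ZMod n)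
        have e1 : p i = p ((i - 1 : ℕ) : ZMod n) + dir d := by
          rw [← hd]
          congr 1
          have : i = (i - 1) + 1 := by omega
          conv_lhs => rw [this]
          push_cast
          rfl
        refine ⟨H192.sq s(p ((i - 1 : ℕ) : ZMod n), p ((i - 1 : ℕ) : ZMod n) + dir d), ?_, ?_⟩
        · rw [H192.ed_sq ⟨_, d, rfl⟩, mem_wE]
          exact ⟨i - 1, by omega, by omega, by rw [← hd]⟩
        · obtain ⟨n1, n2⟩ := H192.ro_dir (p ((i - 1 : ℕ) : ZMod n)) d
          rw [e1, H192.sq_dir]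
          constructor <;> simp only <;> omega
    have hw'n := cor_near' hw2 hsn
    have hw'B : w' ∈ FK.Bq z R := nm_bq (by omega) hw'n
    have hw'D := wE_notMem (S := S) hw1
    obtain ⟨q, hq1, hq2⟩ := hfr w' (Or.inl (QC.mem_FW.2 hw1)) (by omega)
    have hw'c : ω w' = true := hout _ hw'D hw'B
    rw [hw'c] at hq2
    have n1 := conn_cor (hsub _ hv'B) hv'c k1 k3
    have n2 := conn_cor hw'B hw'c hw2 k3
    exact ⟨q, hq1, (H161.Conn.symm n1).trans (n2.trans hq2)⟩

end Vale.Agent.P167.H174.CT
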