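import Vale.Agent.P167.H174.CT.Thk2
import Vale.Agent.P167.H161.Crs
import Vale.Agent.P167.QC.Lat

/-!
# P167, general `q`, continuity: three strands at stopping indices, lattice approximations

`bad_small`: for an approximation of a marked Jordan domain, three strands near each other (contact
scale `η`) in the boxes of radius `R₂` of a finite family of centres which covers a ball except for the
discs of radius `ρ` around the two marks `a`, `b`: at a stopping index the conditional probability is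
at most `ε` except for histories of weight at most `ε`.
-/

namespace Vale.Agent.P167.H174.CT

open Finset Filter Topology MeasureTheory Vale.Agent.P167.FK Vale.Agent.P167.FKA
open Vale.Agent.P167.E6 (wiredOpen edges Encloses IsPolygon Approx pt)
open Vale.Agent.P167.H718 (Dq etaQ)
open Vale.Agent.P167.H166 (mem_Bq)
open Vale.Agent.P167.QE (ExW cexW)
open Vale.Agent.P167.H411 (exn)
open Vale.Agent.P153.R2.Final (dom circ toC)

/-! ### The law -/

section

variable {n : ℕ} {p : ZMod n → ℤ × ℤ} {S : Finset (ℤ × ℤ)} {k : ℕ}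

/-- Three strands near each other in one of the boxes, for the thick configurations. -/
theorem pr_three {q : ℝ} (hQ : 1 ≤ √q) (hRSW : RSW (√q)) : ∃ (κ : ℤ) (α C : ℝ), 4 ≤ κ ∧ 0 < α ∧
    0 < C ∧ ∀ (n : ℕ) (p : ZMod n → ℤ × ℤ) (S : Finset (ℤ × ℤ)) (k : ℕ), IsPolygon p →
      Encloses p S → k + 1 < n → ∀ (cl : ℕ → ℕ), Monotone cl → ∀ (M : ℕ), (∀ i < n, cl i < M) →
      ∀ (ρ : ℤ), 0 ≤ ρ → (∀ i j, i < n → j < n → cl i = cl j →
        nm (H192.ro (p i) - H192.ro (p j)) ≤ ρ) →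
      ∀ (Z : Finset (ℤ × ℤ)) (col : ℤ × ℤ → Bool) (r R : ℤ) (h : ℕ), 1 ≤ r → κ * r + ρ + 8 ≤ R →
      (∀ z ∈ Z, NearC p k z R (col z)) →
      Pr (√q) (Dq S p k) (etaQ p k)
        {ω | ∃ z ∈ Z, rep (Dq S p k) (thk p k S z R (col z)) ω ∈ T3 z r R h} ≤
        Z.card * (C * 2 ^ (2 * M + 1) * (((h : ℝ) + 1) / R) ^ α) := by
  classical
  have hQ0 : 0 < √q := by linarith
  obtain ⟨κ, α, C, hκ, hα, hC, hlaw⟩ := three_law hQ hRSW
  refine ⟨κ, α, C, hκ, hα, hC, ?_⟩
  intro n p S k hp hS hk cl hcl M hM ρ hρ0 hρ Z col r R h hr hR hZ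
  have hR4 : 4 * r ≤ κ * r := mul_le_mul_of_nonneg_right hκ (by omega)
  have hR0 : (0 : ℝ) < R := by exact_mod_cast (by omega : 0 < R)
  have h1 : Pr (√q) (Dq S p k) (etaQ p k)
      {ω | ∃ z ∈ Z, rep (Dq S p k) (thk p k S z R (col z)) ω ∈ T3 z r R h} ≤
      ∑ z ∈ Z, Pr (√q) (Dq S p k) (etaQ p k)
        {ω | rep (Dq S p k) (thk p k S z R (col z)) ω ∈ T3 z r R h} := by
    unfold Pr
    rw [← Ex_sum]
    refine Ex_mono hQ0 fun T _ => ?_
    by_cases h2 : ∃ z ∈ Z, rep (Dq S p k) (thk p k S z R (col z)) (cf (Dq S p k) (etaQ p k) T) ∈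
        T3 z r R h
    · obtain ⟨z, hz, h3⟩ := h2
      rw [Set.indicator_of_mem (show cf (Dq S p k) (etaQ p k) T ∈
        {ω | ∃ z ∈ Z, rep (Dq S p k) (thk p k S z R (col z)) ω ∈ T3 z r R h} from ⟨z, hz, h3⟩)]
      have h4 := Finset.single_le_sum (s := Z) (f := fun z =>
        ({ω | rep (Dq S p k) (thk p k S z R (col z)) ω ∈ T3 z r R h}.indicator (1 : Cfg → ℝ)
          (cf (Dq S p k) (etaQ p k) T)))
        (fun z _ => Set.indicator_nonneg (fun _ _ => zero_le_one) _) hz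
      refine le_trans (le_of_eq ?_) h4
      rw [Pi.one_apply, Set.indicator_of_mem (by exact h3), Pi.one_apply]
    · rw [Set.indicator_of_notMem (by exact h2)]
      exact Finset.sum_nonneg fun z _ => Set.indicator_nonneg (fun _ _ => zero_le_one) _
  refine h1.trans ?_
  rw [← nsmul_eq_mul]
  refine Finset.sum_le_card_nsmul _ _ _ fun z hz => ?_
  obtain ⟨P, hP, hF⟩ := frz1_thk hp hS hk hcl hM hρ z (κ * r) R (col z) (by omega) hρ0 (by omega)
    (hZ z hz)
  have h2 := hlaw z r (κ * r) R h hr le_rfl (by omega) (Dq S p k) (thk p k S z R (col z)) good_thk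
    (!(col z)) P hF (fun _ => 1) (fun _ => zero_le_one) (fun _ _ _ => rfl)
  rw [Ex_const hQ0, mul_one] at h2
  simp only [one_mul] at h2
  have h3 := sameM_thk hp hS hQ0 (hZ z hz) ((T3 z r R h).indicator 1)
  have h4 : Pr (√q) (Dq S p k) (etaQ p k)
      {ω | rep (Dq S p k) (thk p k S z R (col z)) ω ∈ T3 z r R h} =
      Ex (√q) (Dq S p k) (thk p k S z R (col z)) ((T3 z r R h).indicator 1) := by
    rw [h3]
    rfl
  rw [h4]
  refine h2.trans ?_
  have h5 : (2 : ℝ) ^ P.card ≤ 2 ^ (2 * M + 1) := pow_le_pow_right₀ (by norm_num) hP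
  exact mul_le_mul_of_nonneg_right (mul_le_mul_of_nonneg_left h5 hC.le)
    (Real.rpow_nonneg (by positivity) _)

end

/-! ### Positions -/

/-- The position of a site of the lattice of the squares, in units of the mesh. -/
noncomputable def ps (z : ℤ × ℤ) : ℂ := ⟨((z.1 : ℝ) + z.2) / 2, ((z.2 : ℝ) - z.1) / 2⟩

theorem ps_ro (u : ℤ × ℤ) : ps (H192.ro u) = pt u := by
  apply Complex.ext
  · simp only [ps, H192.ro, pt]
    push_cast
    ring
  · simp only [ps, H192.ro, pt]
    push_cast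
    ring

theorem nm_real (v : ℤ × ℤ) : ((nm v : ℤ) : ℝ) = max |(v.1 : ℝ)| |(v.2 : ℝ)| := by
  simp only [nm]
  rw [Int.cast_max, Int.cast_abs, Int.cast_abs]

theorem ps_sub (v w : ℤ × ℤ) : ps v - ps w =
    ⟨((((v - w).1 : ℤ) : ℝ) + (((v - w).2 : ℤ) : ℝ)) / 2,
      ((((v - w).2 : ℤ) : ℝ) - (((v - w).1 : ℤ) : ℝ)) / 2⟩ := by
  apply Complex.ext
  · simp only [ps, Complex.sub_re, Prod.fst_sub, Prod.snd_sub]
    push_cast
    ring
  · simp only [ps, Complex.sub_im, Prod.fst_sub, Prod.snd_sub]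
    push_cast
    ring

theorem ps_dist_le (v w : ℤ × ℤ) : dist (ps v) (ps w) ≤ ((nm (v - w) : ℤ) : ℝ) := by
  rw [Complex.dist_eq, nm_real, ps_sub]
  generalize (((v - w).1 : ℤ) : ℝ) = a
  generalize (((v - w).2 : ℤ) : ℝ) = b
  have h1 := abs_nonneg a
  have h2 := abs_nonneg b
  have h3 : a ^ 2 ≤ (max |a| |b|) ^ 2 := by
    rw [← sq_abs a]
    exact pow_le_pow_left₀ h1 (le_max_left _ _) 2
  have h4 : b ^ 2 ≤ (max |a| |b|) ^ 2 := by
    rw [← sq_abs b]
    exact pow_le_pow_left₀ h2 (le_max_right _ _) 2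
  refine le_of_sq_le_sq ?_ (h1.trans (le_max_left _ _))
  rw [← Complex.normSq_eq_norm_sq, Complex.normSq_mk]
  nlinarith

theorem le_ps_dist (v w : ℤ × ℤ) : ((nm (v - w) : ℤ) : ℝ) ≤ 2 * dist (ps v) (ps w) := by
  rw [Complex.dist_eq, nm_real, ps_sub]
  generalize (((v - w).1 : ℤ) : ℝ) = a
  generalize (((v - w).2 : ℤ) : ℝ) = b
  have h1 := Complex.abs_re_le_norm (⟨(a + b) / 2, (b - a) / 2⟩ : ℂ)
  have h2 := Complex.abs_im_le_norm (⟨(a + b) / 2, (b - a) / 2⟩ : ℂ)
  simp only at h1 h2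
  rw [abs_le] at h1 h2
  refine max_le (abs_le.2 ⟨?_, ?_⟩) (abs_le.2 ⟨?_, ?_⟩) <;> linarith

/-! ### The two arcs -/

theorem toC_inj {a b : ℝ × ℝ} (h : toC a = toC b) : a = b := by
  have h1 := congrArg Complex.re h
  have h2 := congrArg Complex.im h
  exact Prod.ext h1 h2

/-- The two boundary arcs are far from each other off the marks. -/
theorem arcs_far (Φ : (ℝ × ℝ) ≃ₜ (ℝ × ℝ)) {ρ : ℝ} (hρ : 0 < ρ) : ∃ ρ' : ℝ, 0 < ρ' ∧ ∀ x : ℂ,
    ρ ≤ dist x (toC (Φ (circ 0))) → ρ ≤ dist x (toC (Φ (circ Real.pi))) →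
    ∀ t ∈ Set.Icc 0 Real.pi, ∀ t' ∈ Set.Icc Real.pi (2 * Real.pi),
      dist x (toC (Φ (circ t))) < ρ' → dist x (toC (Φ (circ t'))) < ρ' → False := by
  have hc := H161.continuous_bd Φ
  set g : ℝ → ℂ := fun t => toC (Φ (circ t)) with hg
  set K : Set (ℝ × ℝ) := (Set.Icc 0 Real.pi ×ˢ Set.Icc Real.pi (2 * Real.pi)) ∩
    {x | ρ / 2 ≤ dist (g x.1) (g 0) ∧ ρ / 2 ≤ dist (g x.1) (g Real.pi)} with hK
  have hKc : IsCompact K := by
    refine (isCompact_Icc.prod isCompact_Icc).inter_right ?_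
    have k1 : Continuous fun x : ℝ × ℝ => dist (g x.1) (g 0) :=
      (hc.comp continuous_fst).dist continuous_const
    have k2 : Continuous fun x : ℝ × ℝ => dist (g x.1) (g Real.pi) :=
      (hc.comp continuous_fst).dist continuous_const
    exact (isClosed_le continuous_const k1).inter (isClosed_le continuous_const k2)
  have hpos : ∀ x ∈ K, 0 < dist (g x.1) (g x.2) := by
    rintro ⟨t, t'⟩ ⟨⟨h1, h2⟩, h3, h4⟩
    rw [dist_pos]
    intro h5
    simp only at h1 h2 h3 h4 h5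
    have h6 : circ t = circ t' := Φ.injective (toC_inj h5)
    have h7 : Real.sin t = Real.sin t' := congrArg Prod.snd h6
    have h8 : 0 ≤ Real.sin t := Real.sin_nonneg_of_nonneg_of_le_pi h1.1 h1.2
    have h9 : Real.sin t' ≤ 0 := by
      have := Real.sin_nonneg_of_nonneg_of_le_pi (x := t' - Real.pi) (by linarith [h2.1])
        (by linarith [h2.2])
      rw [Real.sin_sub_pi] at this
      linarith
    have h10 : Real.sin t = 0 := le_antisymm (h7 ▸ h9) h8
    have h11 : Real.cos t = 1 ∨ Real.cos t = -1 := Real.sin_eq_zero_iff_cos_eq.1 h10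
    rcases h11 with h11 | h11
    · have e : circ t = circ 0 := by
        unfold circ
        rw [h10, h11, Real.cos_zero, Real.sin_zero]
      have : g t = g 0 := by simp only [hg, e]
      rw [this, dist_self] at h3
      linarith
    · have e : circ t = circ Real.pi := by
        unfold circ
        rw [h10, h11, Real.cos_pi, Real.sin_pi]
      have : g t = g Real.pi := by simp only [hg, e]
      rw [this, dist_self] at h4
      linarith
  obtain ⟨m, hm, hm'⟩ : ∃ m : ℝ, 0 < m ∧ ∀ x ∈ K, m ≤ dist (g x.1) (g x.2) := by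
    rcases K.eq_empty_or_nonempty with h | h
    · exact ⟨1, one_pos, fun x hx => by rw [h] at hx; exact absurd hx (Set.notMem_empty x)⟩
    · obtain ⟨x, hx, hx'⟩ := hKc.exists_isMinOn h
        ((hc.comp continuous_fst).dist (hc.comp continuous_snd)).continuousOn
      exact ⟨_, hpos x hx, fun y hy => hx' hy⟩
  refine ⟨min (ρ / 2) (m / 2), by positivity, fun x hx1 hx2 t ht t' ht' h1 h2 => ?_⟩
  have h3 : dist x (g t) < ρ / 2 := h1.trans_le (min_le_left _ _)
  have h4 : dist x (g t) < m / 2 := h1.trans_le (min_le_right _ _)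
  have h5 : dist x (g t') < m / 2 := h2.trans_le (min_le_right _ _)
  have h6 : ρ / 2 ≤ dist (g t) (g 0) := by
    have := dist_triangle x (g t) (g 0)
    have : ρ ≤ dist x (g 0) := hx1
    linarith
  have h7 : ρ / 2 ≤ dist (g t) (g Real.pi) := by
    have := dist_triangle x (g t) (g Real.pi)
    have : ρ ≤ dist x (g Real.pi) := hx2
    linarith
  have h8 := hm' (t, t') ⟨⟨ht, ht'⟩, h6, h7⟩
  have h9 := dist_triangle_left (g t) (g t') x
  simp only at h8
  linarith

end Vale.Agent.P167.H174.CT
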