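import Vale.Agent.P167.H174.CT.Bad

/-!
# P167, general `q`, continuity: three strands at stopping indices, lattice approximations (final form)
-/

namespace Vale.Agent.P167.H174.CT

open Finset Filter Topology MeasureTheory Vale.Agent.P167.FK Vale.Agent.P167.FKA
open Vale.Agent.P167.E6 (wiredOpen edges Encloses IsPolygon Approx pt)
open Vale.Agent.P167.H718 (Dq etaQ)
open Vale.Agent.P167.H166 (mem_Bq)
open Vale.Agent.P167.QE (ExW cexW)
open Vale.Agent.P167.H411 (exn)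
open Vale.Agent.P153.R2.Final (dom circ toC)

variable {Φ : (ℝ × ℝ) ≃ₜ (ℝ × ℝ)} {δ : ℕ → ℝ} {N k : ℕ → ℕ} {p : ∀ n, ZMod (N n) → ℤ × ℤ}
  {S : ℕ → Finset (ℤ × ℤ)}

/-- `x` is at distance at least `ρ` from the two marks. -/
def Far (Φ : (ℝ × ℝ) ≃ₜ (ℝ × ℝ)) (ρ : ℝ) (x : ℂ) : Prop :=
  ρ ≤ dist x (toC (Φ (circ 0))) ∧ ρ ≤ dist x (toC (Φ (circ Real.pi)))

theorem dist_ps {d : ℝ} (hd : 0 ≤ d) (v w : ℤ × ℤ) :
    dist ((d : ℂ) * ps v) ((d : ℂ) * ps w) = d * dist (ps v) (ps w) := by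
  rw [Complex.dist_eq, Complex.dist_eq, ← mul_sub, norm_mul, Complex.norm_real,
    Real.norm_of_nonneg hd]

theorem Far.mono {ρ ρ' : ℝ} {x y : ℂ} (h : Far Φ ρ x) (hxy : dist x y ≤ ρ - ρ') : Far Φ ρ' y := by
  obtain ⟨h1, h2⟩ := h
  constructor
  · have := dist_triangle x y (toC (Φ (circ 0)))
    linarith
  · have := dist_triangle x y (toC (Φ (circ Real.pi)))
    linarith

/-- The boundary near a box which is far from the marks has one colour. -/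
theorem exists_col (h : Approx Φ δ N k p S) {ρ : ℝ} (hρ : 0 < ρ) : ∃ R₁ : ℝ, 0 < R₁ ∧
    ∀ᶠ n in atTop, ∀ z : ℤ × ℤ, Far Φ ρ ((δ n : ℂ) * ps z) → ∀ R : ℤ, (R : ℝ) * δ n ≤ R₁ →
      ∃ c, NearC (p n) (k n) z R c := by
  classical
  obtain ⟨ρ', hρ', hfar⟩ := arcs_far Φ hρ
  obtain ⟨h1, h2, h3⟩ := h
  refine ⟨ρ' / 4, by positivity, ?_⟩
  filter_upwards [h2.eventually (gt_mem_nhds (show (0 : ℝ) < ρ' / 8 by positivity)),
    h3 (ρ' / 8) (by positivity)] with n hn1 hn2 z hz R hR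
  obtain ⟨s, hs, hs0, hsk, hsN, hsd⟩ := hn2
  obtain ⟨hδ, hk0, hkN, hp, hS⟩ := h1 n
  have key : ∀ i < N n, nm (H192.ro (p n i) - z) ≤ R + 1 →
      dist ((δ n : ℂ) * ps z) (toC (Φ (circ (s i)))) < ρ' := by
    intro i hi hnm
    have e1 := hsd i hi (s i) ⟨le_rfl, hs (Nat.le_succ i)⟩
    rw [← ps_ro] at e1
    have e2 : dist ((δ n : ℂ) * ps z) ((δ n : ℂ) * ps (H192.ro (p n i))) ≤ ρ' / 4 + ρ' / 8 := by
      rw [dist_comm, dist_ps hδ.le]
      have e3 := ps_dist_le (H192.ro (p n i)) z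
      have e4 : ((nm (H192.ro (p n i) - z) : ℤ) : ℝ) ≤ R + 1 := by exact_mod_cast hnm
      have e5 := mul_le_mul_of_nonneg_left (e3.trans e4) hδ.le
      linarith
    have e3 := dist_triangle ((δ n : ℂ) * ps z) ((δ n : ℂ) * ps (H192.ro (p n i)))
      (toC (Φ (circ (s i))))
    linarith
  have hmem : ∀ i < N n, (i < k n → s i ∈ Set.Icc 0 Real.pi) ∧
      (k n ≤ i → s i ∈ Set.Icc Real.pi (2 * Real.pi)) := by
    intro i hi
    refine ⟨fun h => ⟨?_, ?_⟩, fun h => ⟨?_, ?_⟩⟩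
    · rw [← hs0]
      exact hs (Nat.zero_le i)
    · rw [← hsk]
      exact hs h.le
    · rw [← hsk]
      exact hs h
    · rw [← hsN]
      exact hs hi.le
  refine ⟨decide (∃ j : ℕ, k n ≤ j ∧ j < N n ∧ nm (H192.ro (p n j) - z) ≤ R + 1), ?_⟩
  intro i hi hnm
  rw [decide_eq_true_iff]
  constructor
  · rintro ⟨j, hj1, hj2, hj3⟩
    by_contra hik
    exact hfar _ hz.1 hz.2 (s i) ((hmem i hi).1 (by omega)) (s j) ((hmem j hj2).2 hj1)
      (key i hi hnm) (key j hj2 hj3)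
  · exact fun h => ⟨i, h, hi, hnm⟩

/-- Eventually there are two wired vertices. -/
theorem two_ev (h : Approx Φ δ N k p S) : ∀ᶠ n in atTop, k n + 1 < N n := by
  have hne : toC (Φ (circ Real.pi)) ≠ toC (Φ (circ (2 * Real.pi))) := by
    intro h
    have h4 := congrArg Prod.fst (Φ.injective (toC_inj h))
    simp only [circ] at h4
    rw [Real.cos_pi, Real.cos_two_pi] at h4
    norm_num at h4
  have hd := dist_pos.2 hne
  filter_upwards [h.2.2 _ (half_pos hd)] with n hn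
  obtain ⟨s, hs, -, hsk, hsN, hsd⟩ := hn
  have hkN := (h.1 n).2.2.1
  by_contra hcon
  have hN : N n = k n + 1 := by omega
  have h1 := hsd (k n) hkN Real.pi ⟨hsk.le, by rw [← hN, hsN]; linarith [Real.pi_pos]⟩
  have h2 := hsd (k n) hkN (2 * Real.pi)
    ⟨by rw [hsk]; linarith [Real.pi_pos], by rw [← hN, hsN]⟩
  have h3 := dist_triangle_left (toC (Φ (circ Real.pi))) (toC (Φ (circ (2 * Real.pi))))
    ((δ n : ℂ) * pt (p n (k n : ZMod (N n))))
  linarith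

theorem ps_zero : ps (0, 0) = 0 := by
  apply Complex.ext <;> simp [ps]

/-- The grid covers. -/
theorem grid_cover {r : ℤ} (hr : 0 < r) {m : ℤ} {v : ℤ × ℤ} (hv : nm v ≤ (m - 1) * r) :
    ∃ x ∈ Finset.Icc (-m) m ×ˢ Finset.Icc (-m) m, v ∈ FK.Bq (r * x.1, r * x.2) r ∧
      nm (v - (r * x.1, r * x.2)) ≤ r := by
  have a1 := Int.emod_add_mul_ediv v.1 r
  have a2 := Int.emod_nonneg v.1 hr.ne'
  have a3 := Int.emod_lt_of_pos v.1 hr
  have b1 := Int.emod_add_mul_ediv v.2 r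
  have b2 := Int.emod_nonneg v.2 hr.ne'
  have b3 := Int.emod_lt_of_pos v.2 hr
  simp only [nm, max_le_iff, abs_le] at hv
  obtain ⟨⟨c1, c2⟩, c3, c4⟩ := hv
  refine ⟨(v.1 / r, v.2 / r), ?_, ?_, ?_⟩
  · rw [Finset.mem_product, Finset.mem_Icc, Finset.mem_Icc]
    refine ⟨⟨?_, ?_⟩, ?_, ?_⟩
    · by_contra h
      push Not at h
      have : r * (v.1 / r) ≤ r * (-m - 1) := mul_le_mul_of_nonneg_left (by omega) hr.le
      nlinarith
    · by_contra h
      push Not at h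
      have : r * (m + 1) ≤ r * (v.1 / r) := mul_le_mul_of_nonneg_left (by omega) hr.le
      nlinarith
    · by_contra h
      push Not at h
      have : r * (v.2 / r) ≤ r * (-m - 1) := mul_le_mul_of_nonneg_left (by omega) hr.le
      nlinarith
    · by_contra h
      push Not at h
      have : r * (m + 1) ≤ r * (v.2 / r) := mul_le_mul_of_nonneg_left (by omega) hr.le
      nlinarith
  · rw [mem_Bq]
    simp only
    omega
  · simp only [nm, Prod.fst_sub, Prod.snd_sub, max_le_iff, abs_le]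
    omega

open Classical in
/-- **Three strands at stopping indices.** The conditional probability, at a stopping index, of an
event which implies three strands in a box of the family is at most `ε` except for histories of weight
at most `ε`. -/
theorem bad_small {q : ℝ} (hq1 : 1 ≤ q) (hq4 : q ≤ 4) : ∃ K : ℝ, 8 ≤ K ∧
    ∀ (Φ : (ℝ × ℝ) ≃ₜ (ℝ × ℝ)) (δ : ℕ → ℝ) (N k : ℕ → ℕ) (p : ∀ n, ZMod (N n) → ℤ × ℤ)
      (S : ℕ → Finset (ℤ × ℤ)), Approx Φ δ N k p S → ∀ ρ L : ℝ, 0 < ρ → 0 < L →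
    ∃ R₁ : ℝ, 0 < R₁ ∧ ∀ R₂ : ℝ, 0 < R₂ → R₂ ≤ R₁ → ∀ ε : ℝ, 0 < ε → ∃ η : ℝ, 0 < η ∧
      ∀ᶠ n in atTop, ∃ (Z : Finset (ℤ × ℤ)) (col : ℤ × ℤ → Bool),
        (∀ z ∈ Z, Far Φ (ρ / 2) ((δ n : ℂ) * ps z) ∧
          NearC (p n) (k n) z ⌊R₂ / δ n⌋ (col z)) ∧
        (∀ v : ℤ × ℤ, ‖(δ n : ℂ) * ps v‖ ≤ L → Far Φ ρ ((δ n : ℂ) * ps v) →
          ∃ z ∈ Z, v ∈ FK.Bq z ⌊R₂ / (K * δ n)⌋) ∧
        ∀ (ψn : ℕ → ℂ → ℂ) (κ₁ : Finset (Sym2 (ℤ × ℤ)) → ℕ), (exn δ N k p S ψn n).StopIx κ₁ →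
          ∀ E : Finset (Sym2 (ℤ × ℤ)) → Set Cfg, Hist (exn δ N k p S ψn n) κ₁ E →
          (∀ A ⊆ edges (S n), H192.cfg (wiredOpen (p n) (k n) A) ∈ E A → ∃ z ∈ Z,
            rep (Dq (S n) (p n) (k n)) (thk (p n) (k n) (S n) z ⌊R₂ / δ n⌋ (col z))
              (H192.cfg (wiredOpen (p n) (k n) A)) ∈
                T3 z ⌊R₂ / (K * δ n)⌋ ⌊R₂ / δ n⌋ ⌊η / δ n⌋₊) →
          ExW (exn δ N k p S ψn n).C (fun A => Final.weight q (p n) (k n) (S n) A)
            ({A | ε < Pr (√q) (Dq (S n) (p n) (k n) \ H161.Rd (p n) (k n) (S n) A (κ₁ A))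
              (H192.cfg (wiredOpen (p n) (k n) A)) (E A)}.indicator 1) ≤ ε := by
  have hq0 : 0 < q := by linarith
  obtain ⟨hQ, hRSW⟩ := QC.rsw_sqrt hq1 hq4
  obtain ⟨κ, α, C, hκ, hα, hC, hpr⟩ := pr_three (q := q) hQ hRSW
  have hκr : (4 : ℝ) ≤ κ := by exact_mod_cast hκ
  refine ⟨2 * κ, by linarith, ?_⟩
  intro Φ δ N k p S h ρ L hρ hL
  set K : ℝ := 2 * κ with hK
  have hK0 : 0 < K := by linarith
  obtain ⟨R₁, hR₁, hcol⟩ := exists_col h (half_pos hρ)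
  refine ⟨min R₁ (ρ / 2), by positivity, ?_⟩
  intro R₂ hR₂ hR₂' ε hε
  have hR₂₁ : R₂ ≤ R₁ := hR₂'.trans (min_le_left _ _)
  have hR₂ρ : R₂ ≤ ρ / 2 := hR₂'.trans (min_le_right _ _)
  obtain ⟨M, hM⟩ := H161.blocks Φ (show (0 : ℝ) < R₂ / 48 by positivity)
  set m : ℤ := ⌈4 * L * K / R₂⌉ + 1 with hm
  set G : Finset (ℤ × ℤ) := Finset.Icc (-m) m ×ˢ Finset.Icc (-m) m with hG
  set B : ℝ := G.card * (C * 2 ^ (2 * M + 1)) + 1 with hB
  have hB0 : 0 < B := by positivity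
  -- the contact scale
  obtain ⟨η, hη, hη2⟩ : ∃ η : ℝ, 0 < η ∧ (4 * η / R₂) ^ α ≤ ε ^ 2 / B := by
    have h2 : Tendsto (fun η : ℝ => (4 * η / R₂) ^ α) (𝓝[>] 0) (𝓝 0) := by
      have h3 : Tendsto (fun η : ℝ => 4 * η / R₂) (𝓝[>] 0) (𝓝 0) := by
        have : Tendsto (fun η : ℝ => 4 * η / R₂) (𝓝 0) (𝓝 (4 * 0 / R₂)) :=
          (tendsto_id.const_mul 4).div_const R₂
        rw [mul_zero, zero_div] at this
        exact this.mono_left nhdsWithin_le_nhds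
      have h4 := h3.rpow_const (p := α) (Or.inr hα.le)
      rwa [Real.zero_rpow hα.ne'] at h4
    obtain ⟨η, h5, h6⟩ := ((h2.eventually (ge_mem_nhds (show 0 < ε ^ 2 / B by positivity))).and
      self_mem_nhdsWithin).exists
    exact ⟨η, h6, h5⟩
  refine ⟨η, hη, ?_⟩
  obtain ⟨h1, h2, h3⟩ := h
  have hkN2 : ∀ᶠ n in atTop, k n + 1 < N n := two_ev ⟨h1, h2, h3⟩
  filter_upwards [hcol, hkN2,
    h2.eventually (gt_mem_nhds (show (0 : ℝ) < min (R₂ / (24 * K)) η by positivity)),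
    h3 (R₂ / 48) (by positivity)] with n hn1 hn2 hn3 hn4
  obtain ⟨s, hs, hs0, -, hsN, hsd⟩ := hn4
  obtain ⟨hδ, hk0, hkN, hp, hS⟩ := h1 n
  obtain ⟨cl, hcl, hclM, hclρ⟩ := hM (δ n) (N n) (p n) s hδ hs hs0 hsN hsd
  have hδ1 : δ n * (24 * K) < R₂ := by
    have := hn3.trans_le (min_le_left _ _)
    rwa [lt_div_iff₀ (by positivity)] at this
  have hδη : δ n < η := hn3.trans_le (min_le_right _ _)
  set r : ℤ := ⌊R₂ / (K * δ n)⌋ with hr
  set R : ℤ := ⌊R₂ / δ n⌋ with hR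
  set ρl : ℤ := ⌊6 * (R₂ / 48) / δ n⌋ with hρl
  have b1 := Int.floor_le (R₂ / (K * δ n))
  have b2 := Int.lt_floor_add_one (R₂ / (K * δ n))
  have b3 := Int.floor_le (R₂ / δ n)
  have b4 := Int.lt_floor_add_one (R₂ / δ n)
  have b5 := Int.floor_le (6 * (R₂ / 48) / δ n)
  rw [← hr] at b1 b2
  rw [← hR] at b3 b4
  rw [← hρl] at b5
  set Y : ℝ := R₂ / δ n with hY
  have hY1 : 24 * K < Y := by
    rw [hY, lt_div_iff₀ hδ]
    linarith
  have e1 : R₂ / (K * δ n) = Y / K := by rw [hY, div_div, mul_comm K]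
  have e2 : 6 * (R₂ / 48) / δ n = Y / 8 := by rw [hY]; field_simp; norm_num
  rw [e1] at b1 b2
  rw [e2] at b5
  have hYK : 24 < Y / K := by rw [lt_div_iff₀ hK0]; linarith
  have hr1 : 1 ≤ r := by
    have : (0 : ℝ) < r := by linarith
    have : 0 < r := by exact_mod_cast this
    omega
  have hρ0 : 0 ≤ ρl := Int.floor_nonneg.2 (by positivity)
  have hκr2 : (κ : ℝ) * r ≤ Y / 2 := by
    have h5 : (κ : ℝ) * r ≤ κ * (Y / K) := mul_le_mul_of_nonneg_left b1 (by linarith)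
    have h6 : (κ : ℝ) * (Y / K) = Y / 2 := by rw [hK]; field_simp
    linarith
  have hrR : κ * r + ρl + 8 ≤ R := by
    have : (κ : ℝ) * r + ρl + 8 ≤ R := by nlinarith
    exact_mod_cast this
  have hRδ : (R : ℝ) * δ n ≤ R₂ := by
    have := mul_le_mul_of_nonneg_right b3 hδ.le
    rwa [hY, div_mul_cancel₀ _ hδ.ne'] at this
  -- the colours
  have hcol' : ∀ z : ℤ × ℤ, ∃ c, Far Φ (ρ / 2) ((δ n : ℂ) * ps z) → NearC (p n) (k n) z R c := by
    intro z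
    by_cases hz : Far Φ (ρ / 2) ((δ n : ℂ) * ps z)
    · obtain ⟨c, hc⟩ := hn1 z hz R (by linarith)
      exact ⟨c, fun _ => hc⟩
    · exact ⟨true, fun h => absurd h hz⟩
  choose col hcol2 using hcol'
  set Z : Finset (ℤ × ℤ) := (G.image fun x => (r * x.1, r * x.2)).filter
    fun z => Far Φ (ρ / 2) ((δ n : ℂ) * ps z) with hZ
  have hZfar : ∀ z ∈ Z, Far Φ (ρ / 2) ((δ n : ℂ) * ps z) := fun z hz => (Finset.mem_filter.1 hz).2
  refine ⟨Z, col, fun z hz => ⟨hZfar z hz, hcol2 z (hZfar z hz)⟩, ?_, ?_⟩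
  · -- cover
    intro v hvL hvF
    have hnm : ((nm v : ℤ) : ℝ) ≤ 2 * L / δ n := by
      have h5 := le_ps_dist v (0, 0)
      rw [ps_zero, dist_zero_right] at h5
      have h6 : v - (0, 0) = v := sub_zero v
      rw [h6] at h5
      rw [norm_mul, Complex.norm_real, Real.norm_of_nonneg hδ.le] at hvL
      rw [le_div_iff₀ hδ]
      nlinarith
    have hm1 : 4 * L * K / R₂ ≤ ((m - 1 : ℤ) : ℝ) := by
      rw [hm, add_sub_cancel_right]
      exact Int.le_ceil _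
    have hnm2 : nm v ≤ (m - 1) * r := by
      have h5 : Y / K / 2 ≤ r := by linarith
      have h6 : (0 : ℝ) ≤ ((m - 1 : ℤ) : ℝ) := le_trans (by positivity) hm1
      have h7 : 2 * L / δ n = (4 * L * K / R₂) * (Y / K / 2) := by rw [hY]; field_simp; ring
      have h8 : (4 * L * K / R₂) * (Y / K / 2) ≤ ((m - 1 : ℤ) : ℝ) * r :=
        mul_le_mul hm1 h5 (by positivity) h6
      have h9 : ((nm v : ℤ) : ℝ) ≤ (((m - 1) * r : ℤ) : ℝ) := by
        rw [Int.cast_mul]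
        linarith
      exact_mod_cast h9
    obtain ⟨x, hx, hx1, hx2⟩ := grid_cover (by omega : 0 < r) hnm2
    refine ⟨(r * x.1, r * x.2), Finset.mem_filter.2 ⟨Finset.mem_image.2 ⟨x, hx, rfl⟩, ?_⟩, hx1⟩
    refine hvF.mono ?_
    rw [dist_ps hδ.le]
    have h5 := ps_dist_le v (r * x.1, r * x.2)
    have h6 : ((nm (v - (r * x.1, r * x.2)) : ℤ) : ℝ) ≤ r := by exact_mod_cast hx2
    have h7 : δ n * dist (ps v) (ps (r * x.1, r * x.2)) ≤ δ n * r :=
      mul_le_mul_of_nonneg_left (h5.trans h6) hδ.le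
    have h8 : δ n * (r : ℝ) ≤ R₂ := by
      have h9 : (r : ℝ) ≤ R := by exact_mod_cast (by nlinarith : r ≤ R)
      have := mul_le_mul_of_nonneg_left h9 hδ.le
      linarith
    linarith
  · -- the law
    intro ψn κ₁ hκ₁ E hE hinc
    have h5 := stop_law (M := {ω | ∃ z ∈ Z, rep (Dq (S n) (p n) (k n))
      (thk (p n) (k n) (S n) z R (col z)) ω ∈ T3 z r R ⌊η / δ n⌋₊}) hq0 hp hS hκ₁ hE hinc hε
    have h6 := hpr (N n) (p n) (S n) (k n) hp hS hn2 cl hcl M hclM ρl hρ0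
      (fun i j hi hj hij => Int.le_floor.2 (hclρ i j hi hj hij)) Z col r R ⌊η / δ n⌋₊ hr1 hrR
      (fun z hz => hcol2 z (hZfar z hz))
    refine h5.trans ?_
    have hcard : (Z.card : ℝ) ≤ G.card := by
      exact_mod_cast (Finset.card_filter_le _ _).trans Finset.card_image_le
    have hfr : ((⌊η / δ n⌋₊ : ℝ) + 1) / R ≤ 4 * η / R₂ := by
      have h7 : (⌊η / δ n⌋₊ : ℝ) ≤ η / δ n := Nat.floor_le (by positivity)
      have h8 : (1 : ℝ) ≤ η / δ n := by rw [one_le_div hδ]; exact hδη.le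
      have h9 : Y / 2 ≤ R := by linarith
      have h10 : 0 < Y / 2 := by linarith
      calc ((⌊η / δ n⌋₊ : ℝ) + 1) / R ≤ (2 * (η / δ n)) / (Y / 2) :=
            div_le_div₀ (by positivity) (by linarith) h10 h9
        _ = 4 * η / R₂ := by rw [hY]; field_simp; ring
    have hR0 : (0 : ℝ) < R := by linarith
    have h7 : (((⌊η / δ n⌋₊ : ℝ) + 1) / R) ^ α ≤ ε ^ 2 / B :=
      (Real.rpow_le_rpow (by positivity) hfr hα.le).trans hη2
    have h8 : Pr (√q) (Dq (S n) (p n) (k n)) (etaQ (p n) (k n))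
        {ω | ∃ z ∈ Z, rep (Dq (S n) (p n) (k n)) (thk (p n) (k n) (S n) z R (col z)) ω ∈
          T3 z r R ⌊η / δ n⌋₊} ≤ ε ^ 2 := by
      refine h6.trans ?_
      calc (Z.card : ℝ) * (C * 2 ^ (2 * M + 1) * (((⌊η / δ n⌋₊ : ℝ) + 1) / R) ^ α)
          ≤ G.card * (C * 2 ^ (2 * M + 1) * (ε ^ 2 / B)) := by
            refine mul_le_mul hcard (mul_le_mul_of_nonneg_left h7 (by positivity)) ?_
              (Nat.cast_nonneg _)
            exact mul_nonneg (by positivity) (Real.rpow_nonneg (by positivity) _)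
        _ = (G.card * (C * 2 ^ (2 * M + 1)) / B) * ε ^ 2 := by ring
        _ ≤ 1 * ε ^ 2 := by
            refine mul_le_mul_of_nonneg_right ?_ (by positivity)
            rw [div_le_one hB0]
            linarith
        _ = ε ^ 2 := one_mul _
    calc ε⁻¹ * _ ≤ ε⁻¹ * ε ^ 2 := mul_le_mul_of_nonneg_left h8 (inv_pos.2 hε).le
      _ = ε := by field_simp

end Vale.Agent.P167.H174.CT
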