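import Vale.Agent.P167.H174.CT.Three
import Vale.Agent.P167.QC.Mid3

/-!
# P167, general `q`, continuity: three strands, from the potential of the middle strand

`m3_of`, `t3_of`: three different strands of the box `Bq z R`, the potential of one of them separates
the two others, which come near each other in `Bq z r`: the event `T3`.
-/

namespace Vale.Agent.P167.H174.CT

open Finset Vale.Agent.P167.FK Vale.Agent.P167.FKA
open Vale.Agent.P167.H476.Q (M3 E0 mem_E0 Near xt Pot)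
open Vale.Agent.P167.H166 (mem_Bq Arc)
open Vale.Agent.P167.H161 (PotX)
open Vale.Agent.P167.QC.Mid (Str Bdy be_surj be_cases)
open Vale.Agent.P167.H318 (st Adj cnt)

variable {z : ℤ × ℤ} {r R : ℤ} {ω : Cfg}

theorem near_cons {B' : Set (ℤ × ℤ)} {n : ℕ} {u v w : ℤ × ℤ} (hu : u ∈ B') (ha : Adj u v)
    (h : Near B' n v w) : Near B' (n + 1) u w := by
  obtain ⟨l, hl, p, h1, h2, h3, h4⟩ := h
  refine ⟨l + 1, by omega, fun i => if i = 0 then u else p (i - 1), by simp, by simp [h2], ?_, ?_⟩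
  · intro i hi
    rcases Nat.eq_zero_or_pos i with rfl | h0
    · simpa [h1] using ha
    · have h5 := h3 (i - 1) (by omega)
      rw [show i - 1 + 1 = i by omega] at h5
      simp only [h0.ne', if_false, Nat.succ_ne_zero, Nat.add_sub_cancel]
      exact h5
  · intro i hi
    rcases Nat.eq_zero_or_pos i with rfl | h0
    · simpa using hu
    · simp only [h0.ne', if_false]
      exact h4 _ (by omega)

/-- Two squares of a box are joined in it by a chain of the length of their distance. -/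
theorem near_box {w : ℤ × ℤ} (hw : w ∈ FK.Bq z r) : ∀ (n : ℕ) (v : ℤ × ℤ), v ∈ FK.Bq z r →
    (v.1 - w.1).natAbs + (v.2 - w.2).natAbs = n → Near (↑(FK.Bq z r)) n v w := by
  intro n
  induction n with
  | zero =>
    intro v hv h
    have e : v = w := Prod.ext (by omega) (by omega)
    subst e
    exact ⟨0, le_rfl, fun _ => v, rfl, rfl, fun i hi => absurd hi (by omega), fun _ _ => hv⟩
  | succ n ih =>
    intro v hv h
    rw [mem_Bq] at hw hv
    have key : ∀ v' : ℤ × ℤ, Adj v v' → v' ∈ FK.Bq z r →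
        (v'.1 - w.1).natAbs + (v'.2 - w.2).natAbs = n → Near (↑(FK.Bq z r)) (n + 1) v w :=
      fun v' ha hv' hn => near_cons (Finset.mem_coe.2 (mem_Bq.2 hv)) ha (ih v' hv' hn)
    by_cases h1 : v.1 < w.1
    · exact key (v.1 + 1, v.2) (Or.inr ⟨rfl, Or.inl rfl⟩) (by rw [mem_Bq]; simp only; omega)
        (by simp only; omega)
    · by_cases h2 : w.1 < v.1
      · exact key (v.1 - 1, v.2) (Or.inr ⟨rfl, Or.inr rfl⟩) (by rw [mem_Bq]; simp only; omega)
          (by simp only; omega)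
      · by_cases h3 : v.2 < w.2
        · exact key (v.1, v.2 + 1) (Or.inl ⟨rfl, Or.inl rfl⟩) (by rw [mem_Bq]; simp only; omega)
            (by simp only; omega)
        · exact key (v.1, v.2 - 1) (Or.inl ⟨rfl, Or.inr rfl⟩) (by rw [mem_Bq]; simp only; omega)
            (by simp only; omega)

theorem near_mono {B' : Set (ℤ × ℤ)} {n m : ℕ} {v w : ℤ × ℤ} (h : Near B' n v w) (hnm : n ≤ m) :
    Near B' m v w := by
  obtain ⟨l, hl, hp⟩ := h
  exact ⟨l, by omega, hp⟩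

/-- The number of the steps of a strand. -/
theorem xt_eq {e : Ed} {N : ℕ} (h : Str z R ω e N) : xt (FK.Bq z R) e ω = N :=
  H318.Bs.hit_eq_of (Or.inr h.x) fun i hi => ⟨Set.notMem_empty _, h.b i hi⟩

/-- The potential of a strand. -/
theorem pot_of {e : Ed} {N : ℕ} (h : Str z R ω e N) {w : ℤ × ℤ → ℤ}
    (hw : PotX z R (Arc (FK.Bq z R) ω e) w) : Pot (↑(FK.Bq z R)) (cnt e ω N) w := by
  intro e' he'
  have h1 := hw e' (by simpa only [Finset.mem_coe] using he')
  by_cases h2 : e' ∈ Arc (FK.Bq z R) ω e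
  · obtain ⟨n, hn, rfl⟩ := h.mem_arc.1 h2
    rw [h1.1 h2]
    have h3 := H318.cnt_eq_one (D := FK.Bq z R) (e0 := e) (ξ := ω) h.t h.b hn
    have h4 : st e ω n = (nx ω)^[n] e := rfl
    rw [h4] at h3
    rw [h3]
  · rw [h1.2 h2]
    have h3 : cnt e ω N e' = 0 := by
      by_contra h4
      obtain ⟨n, hn, h5⟩ := H318.cnt_pos h4
      exact h2 (h.mem_arc.2 ⟨n, hn, h5⟩)
    rw [h3, add_zero]

/-- The potential of a strand has two values on the boundary of the box. -/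
theorem two_val {f : ℤ × ℤ → ℤ} {m m' e : Ed} (h : Bdy z R f m m')
    (he : hdv e ∈ FK.Bq z R ∧ tlv e ∉ FK.Bq z R) (hne : e ≠ m) :
    f (ls e) = f (rs e) ∧ (f (ls e) = f (ls m) ∨ f (ls e) = f (rs m)) := by
  have hc : f (ls e) = f (rs e) := by
    refine h.c e (Or.inl he) hne fun h' => ?_
    exact h.he'.2 (h' ▸ he.1)
  refine ⟨hc, ?_⟩
  obtain ⟨k, k0, k1, k2⟩ := be_surj (z := z) (R := R) (Or.inl he)
  obtain ⟨p, p0, p1, p2⟩ := be_surj (z := z) (R := R) (Or.inl h.he)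
  obtain ⟨p', q0, q1, q2⟩ := be_surj (z := z) (R := R) (Or.inr h.he')
  have f1 := h.form p0 p1 p2 q0 q1 q2 (k := k) k0 (by omega)
  have f2 := h.form p0 p1 p2 q0 q1 q2 (k := p) p0 (by omega)
  have f3 := h.form p0 p1 p2 q0 q1 q2 (k := p + 1) (by omega) (by omega)
  have b1 := be_cases (z := z) k0 k1
  have b2 := be_cases (z := z) p0 p1
  rw [k2] at b1
  rw [p2] at b2
  replace b1 := b1.resolve_right fun h' => h'.2.1 he.1
  replace b2 := b2.resolve_right fun h' => h'.2.1 h.he.1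
  rw [b1.2.2.1, b2.2.2.1, b2.2.2.2, f1, f2, f3]
  have hj := h.j
  rw [b2.2.2.1, b2.2.2.2, f2, f3] at hj
  split_ifs at * <;> omega

/-- **Three strands.** -/
theorem m3_of {h : ℕ} {e1 e2 em : Ed} {N1 N2 Nm : ℕ} (h1 : Str z R ω e1 N1)
    (h2 : Str z R ω e2 N2) (hm : Str z R ω em Nm) (h1m : e1 ≠ em) (h2m : e2 ≠ em)
    {w : ℤ × ℤ → ℤ} (hw : PotX z R (Arc (FK.Bq z R) ω em) w) (hne : w (ls e1) ≠ w (ls e2))
    {i j : ℕ} (hi : i < N1) (hj : j < N2)
    (hn : Near (↑(FK.Bq z r)) h (hdv ((nx ω)^[i] e1)) (hdv ((nx ω)^[j] e2))) : ω ∈ T3 z r R h := by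
  have hb := hm.bdy hw
  have hE : ∀ {e : Ed} {N : ℕ}, Str z R ω e N → e ∈ E0 (FK.Bq z R) := fun h =>
    mem_E0.2 ⟨h.b 0 h.pos, h.t⟩
  have v1 := two_val (e := e1) hb ⟨h1.b 0 h1.pos, h1.t⟩ h1m
  have v2 := two_val (e := e2) hb ⟨h2.b 0 h2.pos, h2.t⟩ h2m
  have hp := pot_of hm hw
  rw [← xt_eq hm] at hp
  have hj1 := hb.j
  -- the strand on the left of `em`
  by_cases hc : w (ls e1) = w (ls em)
  · have h3 : w (rs e2) = w (rs em) := by
      rcases v2.2 with h4 | h4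
      · exact absurd (hc.trans h4.symm) hne
      · rw [← v2.1, h4]
    exact ⟨em, e1, e2, hE hm, hE h1, hE h2, h1m, h2m, ⟨w, hp, hc, h3⟩, i, by rwa [xt_eq h1], j,
      by rwa [xt_eq h2], hn⟩
  · have h3 : w (rs e1) = w (rs em) := by
      rcases v1.2 with h4 | h4
      · exact absurd h4 hc
      · rw [← v1.1, h4]
    have h4 : w (ls e2) = w (ls em) := by
      rcases v2.2 with h5 | h5
      · exact h5
      · exact absurd (v1.1.trans (h3.trans h5.symm)) hne
    exact ⟨em, e2, e1, hE hm, hE h2, hE h1, h2m, h1m, ⟨w, hp, h4, h3⟩, j, by rwa [xt_eq h2], i,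
      by rwa [xt_eq h1], hn.symm⟩

/-- **Three strands**, with the distance of the squares. -/
theorem t3_of {h : ℕ} {e1 e2 em : Ed} {N1 N2 Nm : ℕ} (h1 : Str z R ω e1 N1)
    (h2 : Str z R ω e2 N2) (hm : Str z R ω em Nm) (h1m : e1 ≠ em) (h2m : e2 ≠ em)
    {w : ℤ × ℤ → ℤ} (hw : PotX z R (Arc (FK.Bq z R) ω em) w) (hne : w (ls e1) ≠ w (ls e2))
    {i j : ℕ} (hi : i < N1) (hj : j < N2) (hr : hdv ((nx ω)^[i] e1) ∈ FK.Bq z r)
    (hn : nm (hdv ((nx ω)^[i] e1) - hdv ((nx ω)^[j] e2)) ≤ h) : ω ∈ T3 z (r + h) R (2 * h) := by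
  refine m3_of h1 h2 hm h1m h2m hw hne hi hj ?_
  set a := hdv ((nx ω)^[i] e1) with ha
  set b := hdv ((nx ω)^[j] e2) with hb
  rw [mem_Bq] at hr
  simp only [nm, Prod.fst_sub, Prod.snd_sub, max_le_iff, abs_le] at hn
  have ha' : a ∈ FK.Bq z (r + h) := by rw [mem_Bq]; omega
  have hb' : b ∈ FK.Bq z (r + h) := by rw [mem_Bq]; omega
  exact near_mono (near_box hb' _ a ha' rfl) (by omega)

end Vale.Agent.P167.H174.CT
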