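import Vale.Agent.P167.H174.CT.Stop
import Vale.Agent.P167.H174.CT.Three
import Vale.Agent.P167.H718.E2c

/-!
# P167, general `q`, continuity: three strands at stopping indices

`stop_three`: if (for the whole configuration, with the outside replaced by `η`) the event `E h` of the
unexplored domain implies three strands near each other in one of the boxes of a finite family, then
the conditional probability of `E h` at a stopping index is at most `ε` except for histories of weight at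
most `ε⁻¹ |Z| C 2^m ((h + 1) / R)^α`.
-/

namespace Vale.Agent.P167.H174.CT

open Finset MeasureTheory Vale.Agent.P167.FK Vale.Agent.P167.FKA
open Vale.Agent.P167.E6 (wiredOpen edges Encloses IsPolygon)
open Vale.Agent.P167.H718 (Dq etaQ)
open Vale.Agent.P167.QE (ExW cexW)
open Vale.Agent.P167.H411 (exn)

open Classical in
/-- The configuration with the outside of `D` replaced. -/
noncomputable def rep (D : Finset (ℤ × ℤ)) (η ω : Cfg) : Cfg := fun v => if v ∈ D then ω v else η v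

theorem rep_cf {D : Finset (ℤ × ℤ)} {η η' : Cfg} (S : Finset (ℤ × ℤ)) :
    rep D η (cf D η' S) = cf D η S := by
  funext v
  unfold rep
  by_cases hv : v ∈ D
  · rw [if_pos hv]
    unfold cf
    rw [if_pos hv, if_pos hv]
  · rw [if_neg hv, cf_out hv]

/-- The outside configuration `η` induces the same measure as `η'`. -/
def SameM (Q : ℝ) (D : Finset (ℤ × ℤ)) (η η' : Cfg) : Prop :=
  ∀ F : Cfg → ℝ, Ex Q D η F = Ex Q D η' (fun ω => F (rep D η ω))

/-- Two configurations which wire the same arc of a polygon. -/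
theorem sameM_dob {n : ℕ} {q : ZMod n → ℤ × ℤ} {D : Finset (ℤ × ℤ)} {η η' : Cfg} {k : ℕ}
    (hq : IsPolygon q) (hD : Encloses q D) (hk : k ≤ n) (h : H718.Dob η D q k)
    (h' : H718.Dob η' D q k) {Q : ℝ} (hQ : 0 < Q) : SameM Q D η η' := by
  classical
  intro F
  rw [H718.Ex_eq hq hD hk h hQ, H718.Ex_eq hq hD hk h' hQ]
  have e : ∀ S : Finset (ℤ × ℤ), BR.pcs (cf D η S) D = BR.pcs (cf D η' S) D := by
    intro S
    exact BR.pcs_congr fun v hv => by
      unfold cf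
      rw [if_pos hv, if_pos hv]
  simp only [e, rep_cf]

section

variable {q : ℝ} {δ : ℕ → ℝ} {N k : ℕ → ℕ} {p : ∀ n, ZMod (N n) → ℤ × ℤ}
  {S : ℕ → Finset (ℤ × ℤ)} {ψn : ℕ → ℂ → ℂ} {n : ℕ}

open Classical in
/-- **Three strands at a stopping index.** -/
theorem stop_three (hQ : 1 ≤ √q) (hRSW : RSW (√q)) : ∃ (κ : ℤ) (α C : ℝ), 4 ≤ κ ∧ 0 < α ∧ 0 < C ∧
    ∀ (δ : ℕ → ℝ) (N k : ℕ → ℕ) (p : ∀ n, ZMod (N n) → ℤ × ℤ) (S : ℕ → Finset (ℤ × ℤ))
      (ψn : ℕ → ℂ → ℂ) (n : ℕ), IsPolygon (p n) → Encloses (p n) (S n) →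
    ∀ κ₁ : Finset (Sym2 (ℤ × ℤ)) → ℕ, (exn δ N k p S ψn n).StopIx κ₁ →
    ∀ E : Finset (Sym2 (ℤ × ℤ)) → Set Cfg, Hist (exn δ N k p S ψn n) κ₁ E →
    ∀ η : Cfg, Good η → SameM (√q) (Dq (S n) (p n) (k n)) η (etaQ (p n) (k n)) →
    ∀ (Z : Finset (ℤ × ℤ)) (r R' R : ℤ) (h m : ℕ), 1 ≤ r → κ * r ≤ R' → R' < R →
    (∀ z ∈ Z, ∃ (c : Bool) (P : Finset (ℤ × ℤ)), P.card ≤ m ∧
      Frz1 (Dq (S n) (p n) (k n)) η z R' R c P) →
    (∀ A ⊆ edges (S n), H192.cfg (wiredOpen (p n) (k n) A) ∈ E A →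
      ∃ z ∈ Z, rep (Dq (S n) (p n) (k n)) η (H192.cfg (wiredOpen (p n) (k n) A)) ∈ T3 z r R h) →
    ∀ ε : ℝ, 0 < ε →
    ExW (exn δ N k p S ψn n).C (fun A => Final.weight q (p n) (k n) (S n) A)
      ({A | ε < Pr (√q) (Dq (S n) (p n) (k n) \ H161.Rd (p n) (k n) (S n) A (κ₁ A))
        (H192.cfg (wiredOpen (p n) (k n) A)) (E A)}.indicator 1) ≤
      ε⁻¹ * (Z.card * (C * 2 ^ m * (((h : ℝ) + 1) / R) ^ α)) := by
  have hq : 0 < q := by
    by_contra h
    rw [Real.sqrt_eq_zero_of_nonpos (not_lt.1 h)] at hQ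
    linarith
  obtain ⟨κ, α, C, hκ, hα, hC, hsum⟩ := three_sum hQ hRSW
  refine ⟨κ, α, C, hκ, hα, hC, ?_⟩
  intro δ N k p S ψn n hp hE κ₁ hκ₁ E hH η hη hS Z r R' R h m hr hκR hR hZ hM ε hε
  have h1 := stop_law (M := {ω | rep (Dq (S n) (p n) (k n)) η ω ∈
    {ω | ∃ z ∈ Z, ω ∈ T3 z r R h}}) hq hp hE hκ₁ hH hM hε
  refine h1.trans (mul_le_mul_of_nonneg_left ?_ (inv_pos.2 hε).le)
  refine le_trans (le_of_eq ?_) (hsum Z r R' R h m hr hκR hR _ η hη hZ)
  unfold Pr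
  rw [hS]
  rfl

end

end Vale.Agent.P167.H174.CT
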