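import Vale.Agent.P167.QG.Dmp
import Vale.Agent.P167.QE.FinL

/-!
# P167, general `q`, continuity: laws at stopping indices

`tower`: the mean of the conditional expectation at a stopping index of a function which depends on
the history is the mean of the function. `stop_law`: if the event `E h` of the unexplored domain
implies (for the whole configuration) the event `M`, then the conditional probability of `E h` at the
stopping index is at most `ε` except for histories of weight at most `P (M) / ε`.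
-/

namespace Vale.Agent.P167.H174.CT

open Finset MeasureTheory Vale.Agent.P167.FK Vale.Agent.P167.FKA
open Vale.Agent.P153.M1 (Expl)
open Vale.Agent.P167.E6 (wiredOpen edges Encloses IsPolygon)
open Vale.Agent.P167.H718 (Dq etaQ)
open Vale.Agent.P167.QE (ExW cexW exW_eq_sum exW_mono exW_smul sum_cexW)
open Vale.Agent.P167.H411 (cyl exn Qc mem_cyl cyl_sub)
open Vale.Agent.P167.QG (cexW_exn weight_pos)

section

variable {A B : Type*} {X : Expl A B} {w : A → ℝ} {κ : A → ℕ}

/-- The family `E` depends only on the history up to `κ`. -/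
def Hist {β : Type*} (X : Expl A B) (κ : A → ℕ) (E : A → β) : Prop :=
  ∀ h ∈ X.C, ∀ h' ∈ X.C, (∀ j ≤ κ h, X.r h' j = X.r h j) → E h' = E h

/-- **The tower at a stopping index**, for functions which depend on the history. -/
theorem tower (hf : X.C.Finite) (hw : ∀ a ∈ X.C, 0 < w a) (hκ : X.StopIx κ) {Φ : A → A → ℝ}
    (hΦ : Hist X κ Φ) :
    ExW X.C w (fun h => cexW X w (Φ h) h (κ h)) = ExW X.C w (fun h => Φ h h) := by
  have e1 : ∀ h ∈ X.C, cexW X w (Φ h) h (κ h) = cexW X w (fun a => Φ a a) h (κ h) := by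
    intro h hh
    unfold cexW ExW
    congr 1
    refine finsum_mem_congr rfl fun a ha => ?_
    show w a * Φ h a = w a * Φ a a
    rw [hΦ h hh a ha.1 ha.2]
  have h1 := sum_cexW hf hw hκ (Y := fun _ => 1) (fun _ _ _ _ _ => rfl) (fun a => Φ a a)
  simp only [mul_one] at h1
  rw [exW_eq_sum hf, exW_eq_sum hf, ← h1]
  congr 1
  refine sum_congr rfl fun h hh => ?_
  rw [e1 h (hf.mem_toFinset.1 hh)]

/-- Markov's inequality. -/
theorem exW_markov {C : Set A} (hf : C.Finite) (hw : ∀ a ∈ C, 0 < w a) {f : A → ℝ}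
    (h0 : ∀ a ∈ C, 0 ≤ f a) {ε : ℝ} (hε : 0 < ε) :
    ExW C w ({h | ε < f h}.indicator 1) ≤ ε⁻¹ * ExW C w f := by
  rw [← exW_smul hf]
  refine exW_mono hf hw fun a ha => ?_
  by_cases h : ε < f a
  · rw [Set.indicator_of_mem (show a ∈ {h | ε < f h} from h), Pi.one_apply, ← div_eq_inv_mul,
      le_div_iff₀ hε]
    linarith
  · rw [Set.indicator_of_notMem (show a ∉ {h | ε < f h} from h)]
    exact mul_nonneg (inv_pos.2 hε).le (h0 a ha)

/-- Weighted form: relatively to a nonnegative function `G` of the outcome. -/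
theorem tower_le (hf : X.C.Finite) (hw : ∀ a ∈ X.C, 0 < w a) (hκ : X.StopIx κ)
    {Φ : A → A → ℝ} (hΦ : Hist X κ Φ) (h0 : ∀ h ∈ X.C, ∀ a ∈ X.C, 0 ≤ Φ h a) {g : A → ℝ}
    (hg : ∀ h ∈ X.C, Φ h h ≤ g h) {ε : ℝ} (hε : 0 < ε) :
    ExW X.C w ({h | ε < cexW X w (Φ h) h (κ h)}.indicator 1) ≤ ε⁻¹ * ExW X.C w g := by
  refine (exW_markov hf hw (f := fun h => cexW X w (Φ h) h (κ h)) (fun h hh => ?_) hε).trans ?_
  · exact QE.cexW_nonneg hw (fun a ha => h0 h hh a ha) h (κ h)
  · rw [tower hf hw hκ hΦ]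
    exact mul_le_mul_of_nonneg_left (exW_mono hf hw hg) (inv_pos.2 hε).le

end

/-! ### The random-cluster explorations -/

section

variable {q : ℝ} {δ : ℕ → ℝ} {N k : ℕ → ℕ} {p : ∀ n, ZMod (N n) → ℤ × ℤ}
  {S : ℕ → Finset (ℤ × ℤ)} {ψn : ℕ → ℂ → ℂ} {n : ℕ}

theorem exn_C : (exn δ N k p S ψn n).C = {A | A ⊆ edges (S n)} := by
  ext A
  show A ∈ (Qc (p n) (k n) (δ n) (S n)).C ↔ _
  rw [H411.mem_Qc]
  rfl

theorem exn_fin : (exn δ N k p S ψn n).C.Finite := by
  rw [exn_C]
  exact (Finset.finite_toSet (edges (S n)).powerset).subset fun A hA =>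
    Finset.mem_coe.2 (Finset.mem_powerset.2 hA)

theorem exn_w (hq : 0 < q) : ∀ A ∈ (exn δ N k p S ψn n).C,
    0 < Final.weight q (p n) (k n) (S n) A := fun A _ => weight_pos hq _ _ _ A

/-- The law of the whole configuration. -/
theorem exW_exn (hq : 0 < q) (hp : IsPolygon (p n)) (hE : Encloses (p n) (S n)) (Φ : Cfg → ℝ) :
    ExW (exn δ N k p S ψn n).C (fun A => Final.weight q (p n) (k n) (S n) A)
      (fun A => Φ (H192.cfg (wiredOpen (p n) (k n) A))) =
      Ex (√q) (Dq (S n) (p n) (k n)) (etaQ (p n) (k n)) Φ := by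
  rw [QG.exW_mean hq (Cs := (exn δ N k p S ψn n).C) (fun A hA => by rw [exn_C] at hA; exact hA),
    ← H718.mean_eq_Ex hq hp hE]
  have e1 : ∀ Ψ : Finset (Sym2 (ℤ × ℤ)) → ℝ, Final.mean q (p n) (k n) (S n)
      (fun A => (exn δ N k p S ψn n).C.indicator 1 A * Ψ A) =
      Final.mean q (p n) (k n) (S n) Ψ := by
    intro Ψ
    unfold Final.mean
    congr 1
    refine sum_congr rfl fun A hA => ?_
    congr 1
    have hA' : A ∈ (exn δ N k p S ψn n).C := by
      rw [exn_C]
      exact Finset.mem_powerset.1 hA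
    show (exn δ N k p S ψn n).C.indicator 1 A * Ψ A = Ψ A
    rw [Set.indicator_of_mem hA', Pi.one_apply, one_mul]
  have e2 : Final.mean q (p n) (k n) (S n) ((exn δ N k p S ψn n).C.indicator 1) = 1 := by
    have h1 := e1 (fun _ => 1)
    simp only [mul_one] at h1
    rw [h1]
    unfold Final.mean
    simp only [mul_one]
    exact div_self (QG.weight_sum_pos hq (p n) (k n) (S n)).ne'
  rw [e1, e2, div_one]

open Classical in
/-- **The law at a stopping index.** `E h` is an event which depends on the history, `M` contains all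
the configurations of `E h` with the history `h`. -/
theorem stop_law (hq : 0 < q) (hp : IsPolygon (p n)) (hE : Encloses (p n) (S n))
    {κ : Finset (Sym2 (ℤ × ℤ)) → ℕ} (hκ : (exn δ N k p S ψn n).StopIx κ)
    {E : Finset (Sym2 (ℤ × ℤ)) → Set Cfg} (hH : Hist (exn δ N k p S ψn n) κ E) {M : Set Cfg}
    (hM : ∀ A ⊆ edges (S n), H192.cfg (wiredOpen (p n) (k n) A) ∈ E A →
      H192.cfg (wiredOpen (p n) (k n) A) ∈ M) {ε : ℝ} (hε : 0 < ε) :
    ExW (exn δ N k p S ψn n).C (fun A => Final.weight q (p n) (k n) (S n) A)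
      ({A | ε < Pr (√q) (Dq (S n) (p n) (k n) \ H161.Rd (p n) (k n) (S n) A (κ A))
        (H192.cfg (wiredOpen (p n) (k n) A)) (E A)}.indicator 1) ≤
      ε⁻¹ * Pr (√q) (Dq (S n) (p n) (k n)) (etaQ (p n) (k n)) M := by
  have hf : (exn δ N k p S ψn n).C.Finite := exn_fin
  have hw := exn_w (δ := δ) (N := N) (k := k) (p := p) (S := S) (ψn := ψn) (n := n) hq
  have h1 := tower_le (w := fun A => Final.weight q (p n) (k n) (S n) A) hf hw hκ
    (Φ := fun h A' => (E h).indicator 1 (H192.cfg (wiredOpen (p n) (k n) A')))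
    (fun h hh h' hh' ha => by simp only [hH h hh h' hh' ha])
    (fun _ _ _ _ => Set.indicator_nonneg (fun _ _ => zero_le_one) _)
    (g := fun A => M.indicator 1 (H192.cfg (wiredOpen (p n) (k n) A)))
    (fun A hA => ?_) hε
  · rw [exW_exn hq hp hE] at h1
    refine le_trans (le_of_eq ?_) h1
    unfold ExW
    congr 1
    refine finsum_mem_congr rfl fun A hA => ?_
    rw [exn_C] at hA
    congr 1
    have e : cexW (exn δ N k p S ψn n) (fun A => Final.weight q (p n) (k n) (S n) A)
        (fun A' => (E A).indicator 1 (H192.cfg (wiredOpen (p n) (k n) A'))) A (κ A) =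
        Pr (√q) (Dq (S n) (p n) (k n) \ H161.Rd (p n) (k n) (S n) A (κ A))
          (H192.cfg (wiredOpen (p n) (k n) A)) (E A) :=
      cexW_exn hq δ N k p S ψn n hp hE _ hA (κ A)
    by_cases hA' : ε < Pr (√q) (Dq (S n) (p n) (k n) \ H161.Rd (p n) (k n) (S n) A (κ A))
        (H192.cfg (wiredOpen (p n) (k n) A)) (E A)
    · have hA2 : A ∈ {h | ε < cexW (exn δ N k p S ψn n)
          (fun A => Final.weight q (p n) (k n) (S n) A)
          (fun A' => (E h).indicator 1 (H192.cfg (wiredOpen (p n) (k n) A'))) h (κ h)} := by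
        show ε < cexW _ _ _ A (κ A)
        rw [e]
        exact hA'
      rw [Set.indicator_of_mem hA2, Set.indicator_of_mem (by exact hA')]
    · have hA2 : A ∉ {h | ε < cexW (exn δ N k p S ψn n)
          (fun A => Final.weight q (p n) (k n) (S n) A)
          (fun A' => (E h).indicator 1 (H192.cfg (wiredOpen (p n) (k n) A'))) h (κ h)} := by
        show ¬ ε < cexW _ _ _ A (κ A)
        rw [e]
        exact hA'
      rw [Set.indicator_of_notMem hA2, Set.indicator_of_notMem (by exact hA')]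
  · rw [exn_C] at hA
    by_cases h2 : H192.cfg (wiredOpen (p n) (k n) A) ∈ E A
    · rw [Set.indicator_of_mem h2, Set.indicator_of_mem (hM A hA h2)]
    · rw [Set.indicator_of_notMem h2]
      exact Set.indicator_nonneg (fun _ _ => zero_le_one) _

end

end Vale.Agent.P167.H174.CT
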