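import Vale.Agent.P167.H174.CT.Law3
import Vale.Agent.P167.H174.CT.Br3
import Vale.Agent.P167.QC.Frz
import Vale.Agent.P167.H167.Q.Mix

/-!
# P167, general `q`, continuity: the outside of a lattice polygon near a box, thick configuration

`thk p k S z R c`: the squares outside of the domain in the box `Bq z R` get the colour `c`. If all the
boundary vertices near the box have the colour `c`, the law in the domain does not change
(`sameM_thk`), and the frozen squares near `z` are joined in the box to few sites (`frz1_thk`).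
-/

namespace Vale.Agent.P167.H174.CT

open Finset Relation Vale.Agent.P167.FK Vale.Agent.P167.FKA
open Vale.Agent.P145.FB (PStep)
open Vale.Agent.P167.E6 (edges Encloses IsPolygon dir face)
open Vale.Agent.P167.E2 (exists_of_mixed mem_edges)
open Vale.Agent.P167.H718 (Dq etaQ wE mem_Dq' mem_wE wE_sub)
open Vale.Agent.P167.H166 (mem_Bq)
open Vale.Agent.P167.H161 (Conn FW FO Fq ovq)
open Vale.Agent.P167.QC (par conn_cor par_true par_false)
open Vale.Agent.P167.H318 (Adj)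

variable {n : ℕ} {p : ZMod n → ℤ × ℤ} {S : Finset (ℤ × ℤ)} {k : ℕ} {z : ℤ × ℤ} {R : ℤ} {c : Bool}

open Classical in
/-- The outside configuration, with the colour `c` in the box. -/
noncomputable def thk (p : ZMod n → ℤ × ℤ) (k : ℕ) (S : Finset (ℤ × ℤ)) (z : ℤ × ℤ) (R : ℤ)
    (c : Bool) : Cfg := fun v => if v ∈ FK.Bq z R ∧ v ∉ Dq S p k then c else etaQ p k v

/-- The boundary vertices near the box have the colour `c`. -/
def NearC (p : ZMod n → ℤ × ℤ) (k : ℕ) (z : ℤ × ℤ) (R : ℤ) (c : Bool) : Prop :=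
  ∀ i : ℕ, i < n → nm (H192.ro (p i) - z) ≤ R + 1 → (c = true ↔ k ≤ i)

theorem good_thk : Good (thk p k S z R c) := by
  classical
  have h := f_good.1 (FK.Bq z R \ Dq S p k) (etaQ p k)
    (if c then FK.Bq z R \ Dq S p k else ∅) H718.good_etaQ
  have e : cf (FK.Bq z R \ Dq S p k) (etaQ p k) (if c then FK.Bq z R \ Dq S p k else ∅) =
      thk p k S z R c := by
    funext v
    unfold thk
    by_cases hv : v ∈ FK.Bq z R ∧ v ∉ Dq S p k
    · rw [if_pos hv]
      unfold cf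
      rw [if_pos (Finset.mem_sdiff.2 hv)]
      cases c
      · simp
      · simp [hv.1, hv.2]
    · rw [if_neg hv, cf_out fun h => hv (Finset.mem_sdiff.1 h)]
  rwa [e] at h

/-! ### Corners -/

theorem cor_sq {v u : ℤ × ℤ} (h : Cor v (H192.ro u)) : ∃ d, v = H192.sq s(u, u + dir d) := by
  obtain ⟨u1, u2⟩ := u
  obtain ⟨a, b⟩ := v
  obtain ⟨h1, h2⟩ := h
  simp only [H192.ro] at h1 h2
  rcases h1 with h1 | h1 <;> rcases h2 with h2 | h2
  · refine ⟨0, ?_⟩
    rw [H192.sq_dir]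
    simp only [dir, H192.ro]
    ext <;> simp <;> omega
  · refine ⟨3, ?_⟩
    rw [H192.sq_dir]
    simp only [dir, H192.ro]
    ext <;> simp <;> omega
  · refine ⟨1, ?_⟩
    rw [H192.sq_dir]
    simp only [dir, H192.ro]
    ext <;> simp <;> omega
  · refine ⟨2, ?_⟩
    rw [H192.sq_dir]
    simp only [dir, H192.ro]
    ext <;> simp <;> omega

theorem cor_of_sq (u : ℤ × ℤ) (d : Fin 4) : Cor (H192.sq s(u, u + dir d)) (H192.ro u) := by
  obtain ⟨h1, h2⟩ := H192.ro_dir u d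
  rw [H192.sq_dir]
  constructor <;> simp only <;> omega

/-- Two neighbouring squares have corners of both colours in common. -/
theorem adj_cor {v w : ℤ × ℤ} (h : Adj v w) (b : Bool) :
    ∃ s, Cor v s ∧ Cor w s ∧ (s.1 + s.2) % 2 = par b := by
  obtain ⟨v1, v2⟩ := v
  obtain ⟨w1, w2⟩ := w
  have hb : par b = 0 ∨ par b = 1 := by cases b <;> simp [par]
  simp only [Adj] at h
  simp only [Cor]
  rcases h with ⟨h1, h2 | h2⟩ | ⟨h1, h2 | h2⟩ <;> subst h1 <;> subst h2
  · rcases Int.emod_two_eq_zero_or_one (v1 + (v2 + 1)) with h3 | h3 <;> rcases hb with hb | hb <;>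
      rw [hb]
    · exact ⟨(v1, v2 + 1), by simp, by simp, h3⟩
    · exact ⟨(v1 + 1, v2 + 1), by simp, by simp, by simp only; omega⟩
    · exact ⟨(v1 + 1, v2 + 1), by simp, by simp, by simp only; omega⟩
    · exact ⟨(v1, v2 + 1), by simp, by simp, h3⟩
  · rcases Int.emod_two_eq_zero_or_one (v1 + v2) with h3 | h3 <;> rcases hb with hb | hb <;>
      rw [hb]
    · exact ⟨(v1, v2), by simp, by simp, h3⟩
    · exact ⟨(v1 + 1, v2), by simp, by simp, by simp only; omega⟩
    · exact ⟨(v1 + 1, v2), by simp, by simp, by simp only; omega⟩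
    · exact ⟨(v1, v2), by simp, by simp, h3⟩
  · rcases Int.emod_two_eq_zero_or_one (v1 + 1 + v2) with h3 | h3 <;> rcases hb with hb | hb <;>
      rw [hb]
    · exact ⟨(v1 + 1, v2), by simp, by simp, h3⟩
    · exact ⟨(v1 + 1, v2 + 1), by simp, by simp, by simp only; omega⟩
    · exact ⟨(v1 + 1, v2 + 1), by simp, by simp, by simp only; omega⟩
    · exact ⟨(v1 + 1, v2), by simp, by simp, h3⟩
  · rcases Int.emod_two_eq_zero_or_one (v1 + v2) with h3 | h3 <;> rcases hb with hb | hb <;>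
      rw [hb]
    · exact ⟨(v1, v2), by simp, by simp, h3⟩
    · exact ⟨(v1, v2 + 1), by simp, by simp, by simp only; omega⟩
    · exact ⟨(v1, v2 + 1), by simp, by simp, by simp only; omega⟩
    · exact ⟨(v1, v2), by simp, by simp, h3⟩

theorem mem_edges' {v u : ℤ × ℤ} {d : Fin 4} (h : v = H192.sq s(u, u + dir d)) :
    H192.ed v ∈ edges S ↔ face u d ∈ S ∨ face u (d - 1) ∈ S := by
  rw [h, H192.ed_sq ⟨u, d, rfl⟩, mem_edges]

/-- An even site between a square of the domain and a square off the domain is a boundary vertex. -/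
theorem on_poly (hp : IsPolygon p) (hS : Encloses p S) {v w s : ℤ × ℤ} (hv : H192.ed v ∉ edges S)
    (hw : H192.ed w ∈ edges S) (h1 : Cor v s) (h2 : Cor w s) (he : (s.1 + s.2) % 2 = 0) :
    ∃ i : ℕ, i < n ∧ s = H192.ro (p i) ∧ ∃ d, face (p i) d ∉ S ∧ face (p i) (d - 1) ∉ S ∧
      v = H192.sq s(p i, p i + dir d) := by
  have : NeZero n := ⟨by have := hp.1; omega⟩
  have hs : s = H192.ro (H192.ro' s) := (H192.ro_ro' (Int.even_iff.2 he)).symm
  obtain ⟨d, hd⟩ := cor_sq (hs ▸ h1 : Cor v (H192.ro (H192.ro' s)))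
  obtain ⟨d', hd'⟩ := cor_sq (hs ▸ h2 : Cor w (H192.ro (H192.ro' s)))
  rw [mem_edges' hd, not_or] at hv
  rw [mem_edges' hd'] at hw
  obtain ⟨i, hi⟩ : ∃ i, p i = H192.ro' s := by
    rcases hw with h | h
    · exact exists_of_mixed hS h hv.1
    · exact exists_of_mixed hS h hv.1
  refine ⟨i.val, ZMod.val_lt i, ?_, d, ?_⟩
  · rw [ZMod.natCast_zmod_val, hi]
    exact hs
  · rw [ZMod.natCast_zmod_val, hi]
    exact ⟨hv.1, hv.2, hd⟩

theorem cor_near {v s : ℤ × ℤ} {R' : ℤ} (hc : Cor v s) (hv : nm (v - z) ≤ R') :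
    nm (s - z) ≤ R' + 1 := by
  obtain ⟨h1, h2⟩ := hc
  simp only [nm, Prod.fst_sub, Prod.snd_sub, max_le_iff, abs_le] at hv ⊢
  omega

theorem cor_near' {v s : ℤ × ℤ} {R' : ℤ} (hc : Cor v s) (hv : nm (s - z) ≤ R') :
    nm (v - z) ≤ R' + 1 := by
  obtain ⟨h1, h2⟩ := hc
  simp only [nm, Prod.fst_sub, Prod.snd_sub, max_le_iff, abs_le] at hv ⊢
  omega

theorem bq_nm {v : ℤ × ℤ} (hv : v ∈ FK.Bq z R) : nm (v - z) ≤ R := by
  rw [mem_Bq] at hv
  simp only [nm, Prod.fst_sub, Prod.snd_sub, max_le_iff, abs_le]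
  omega

theorem nm_bq {v : ℤ × ℤ} {R' : ℤ} (h : R' < R) (hv : nm (v - z) ≤ R') : v ∈ FK.Bq z R := by
  rw [mem_Bq]
  simp only [nm, Prod.fst_sub, Prod.snd_sub, max_le_iff, abs_le] at hv
  omega

/-! ### The frozen layer -/

theorem etaQ_true {v : ℤ × ℤ} : etaQ p k v = true ↔ H192.ed v ∈ wE p k := by
  unfold etaQ
  rw [H192.cfg_true, Finset.mem_coe]

/-- A wired square. -/
theorem fw_cor (hp : IsPolygon p) {v : ℤ × ℤ} (h : H192.ed v ∈ wE p k) :
    ∃ i : ℕ, k ≤ i ∧ i + 1 < n ∧ v = H192.sq s(p i, p (i + 1)) ∧ Cor v (H192.ro (p i)) ∧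
      Cor v (H192.ro (p (i + 1))) := by
  obtain ⟨i, h1, h2, h3⟩ := mem_wE.1 h
  obtain ⟨d, hd⟩ := hp.2.2 (i : ZMod n)
  have e : v = H192.sq s(p i, p (i + 1)) := by rw [← h3, H192.sq_ed]
  refine ⟨i, h1, h2, e, ?_, ?_⟩
  · rw [e, hd]
    exact cor_of_sq _ _
  · obtain ⟨h4, h5⟩ := H192.ro_dir (p i) d
    rw [e, hd, H192.sq_dir]
    constructor <;> simp only <;> omega

theorem etaQ_box (hp : IsPolygon p) (hN : NearC p k z R false) {v : ℤ × ℤ} (hv : v ∈ FK.Bq z R) :
    etaQ p k v = false := by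
  by_contra h
  rw [Bool.not_eq_false] at h
  obtain ⟨i, h1, h2, -, h3, -⟩ := fw_cor hp (etaQ_true.1 h)
  have := (hN i (by omega) (cor_near h3 (bq_nm hv))).2 h1
  exact Bool.false_ne_true this

theorem thk_false (hp : IsPolygon p) (hN : NearC p k z R false) :
    thk p k S z R false = etaQ p k := by
  funext v
  unfold thk
  by_cases h : v ∈ FK.Bq z R ∧ v ∉ Dq S p k
  · rw [if_pos h, etaQ_box hp hN h.1]
  · rw [if_neg h]

theorem wE_notMem {v : ℤ × ℤ} (h : H192.ed v ∈ wE p k) : v ∉ Dq S p k := fun h' =>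
  (mem_Dq'.1 h').2 h

theorem thk_fw (hp : IsPolygon p) (hN : NearC p k z R c) {v : ℤ × ℤ} (h : H192.ed v ∈ wE p k) :
    thk p k S z R c v = true := by
  unfold thk
  by_cases hv : v ∈ FK.Bq z R ∧ v ∉ Dq S p k
  · rw [if_pos hv]
    obtain ⟨i, h1, h2, -, h3, -⟩ := fw_cor hp h
    exact (hN i (by omega) (cor_near h3 (bq_nm hv.1))).2 h1
  · rw [if_neg hv]
    exact etaQ_true.2 h

theorem thk_fo (hp : IsPolygon p) (hS : Encloses p S) (hk : k ≤ n) (hN : NearC p k z R c) {v : ℤ × ℤ}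
    (h : v ∈ FO p k S) : thk p k S z R c v = false ∧ v ∉ Dq S p k := by
  have hD : v ∉ Dq S p k := fun h' => QC.FO_not_edges h (mem_Dq'.1 h').1
  refine ⟨?_, hD⟩
  unfold thk
  by_cases hv : v ∈ FK.Bq z R ∧ v ∉ Dq S p k
  · rw [if_pos hv]
    obtain ⟨i, r, h1, -, -, h2⟩ := h
    have h3 : Cor v (H192.ro (p i)) := by rw [h2]; exact cor_of_sq _ _
    have h4 := hN i (by omega) (cor_near h3 (bq_nm hv.1))
    cases c
    · rfl
    · exact absurd (h4.1 rfl) (by omega)
  · rw [if_neg hv]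
    by_contra hne
    rw [Bool.not_eq_false] at hne
    exact QC.FO_not_edges h (wE_sub hp hS (etaQ_true.1 hne))

open Classical in
theorem ovq_thk (hp : IsPolygon p) (hS : Encloses p S) (hk : k ≤ n) (hN : NearC p k z R c)
    (T : Finset (ℤ × ℤ)) : ovq p k S (cf (Dq S p k) (thk p k S z R c) T) =
      cf (Dq S p k) (thk p k S z R c) T := by
  funext v
  by_cases h : v ∈ Fq p k S
  · rcases h with h | h
    · rw [H161.ovq_FW h, cf_out (wE_notMem (QC.mem_FW.1 h)), thk_fw hp hN (QC.mem_FW.1 h)]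
    · obtain ⟨h1, h2⟩ := thk_fo hp hS hk hN h
      rw [H161.ovq_FO hp hS h, cf_out h2, h1]
  · exact H161.ovq_off _ _ h

end Vale.Agent.P167.H174.CT
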